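import Vale.Agent.P092.CL.Lt
import Vale.Agent.P092.H714.Cl5
import Vale.Agent.P092.H714.Cl9
import Vale.Agent.P092.H15.SpGT
import Vale.Agent.P092.H15.ClHM
import Vale.Agent.P092.H714.SpM4
import Vale.Agent.P092.H793.Irr

/-!
P092, TEAM P, CL-TOP (3) (helper874): the group of a form (every `Frm`) and its quotients by central
subgroups are admissible source groups for the letters `CL.lt`.
-/

set_option linter.all false

open Matrix Filter Topology Set MeasureTheory

namespace Vale.Agent.P092.H874.CLAdm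

open Vale.Agent.P092.H303 (FormGroup hyp Idx)
open Vale.Agent.P092.H714.Cl
open Vale.Agent.P092.H15 (HMG)
open Vale.Agent.P092.RC (Moore)
open Vale.Agent.P092.CL (ta nmM scal lt Lt Adm V2)

section gen

variable {n : Type} [Fintype n] [DecidableEq n] {k : Type} [NontriviallyNormedField k]
  {σ : k →+* k} {ε : k} {J : Matrix n n k}

/-- **The group of every form of the record is generated by its transvections.** -/
theorem eq_GT (hσ : ∀ x, ‖σ x‖ = ‖x‖) (hF : Frm σ ε J) : FormGroup σ J = GT σ ε J := by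
  by_cases hne : ∃ c, σ c ≠ c
  · obtain ⟨r, hr, hr1⟩ := exists_fix hF hσ
    have hr0 : r ≠ 0 := by
      rintro rfl
      rw [norm_zero] at hr1
      linarith
    have hr1' : r ≠ 1 := by
      rintro rfl
      rw [norm_one] at hr1
      linarith
    exact formGroup_eq_GT hF hne hr hr0 hr1'
  · push Not at hne
    obtain rfl : σ = RingHom.id k := RingHom.ext hne
    obtain ⟨c, hc0, hc⟩ := hF.cc
    obtain rfl : ε = -1 := by
      have h1 : (1 + ε) * c = 0 := by
        rw [RingHom.id_apply] at hc
        linear_combination hc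
      have h2 := (mul_eq_zero.1 h1).resolve_right hc0
      linear_combination h2
    have hJ : ∀ i j, hf (RingHom.id k) J (Pi.single i 1) (Pi.single j 1) = J i j := by
      intro i j
      have e : (fun l => RingHom.id k ((Pi.single j 1 : n → k) l)) = Pi.single j 1 := rfl
      unfold hf
      rw [e, mulVec_single_one, single_one_dotProduct]
      rfl
    refine H15.formGroup_eq_GT ⟨fun i => ?_, fun i j => ?_, fun h => ?_⟩
    · obtain ⟨β, hβ⟩ := hF.tv (Pi.single i 1)
      rw [hJ] at hβ
      rw [hβ, RingHom.id_apply]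
      ring
    · have h1 := hF.herm (Pi.single i 1) (Pi.single j 1)
      rw [hJ, hJ, RingHom.id_apply] at h1
      rw [h1]
      ring
    · obtain ⟨v, hv0, hv⟩ := Matrix.exists_vecMul_eq_zero_iff.2 h
      obtain ⟨y, hy⟩ := hF.nondeg v hv0
      apply hy
      unfold hf
      rw [dotProduct_mulVec, hv, zero_dotProduct]

/-- **Howe–Moore for the group of every form of the record.** -/
theorem hmg_frm [ProperSpace k] (hσ : ∀ x, ‖σ x‖ = ‖x‖) (hF : Frm σ ε J) :
    HMG (FormGroup σ J) := by
  have hGT := eq_GT hσ hF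
  have hcl : IsClosed (FormGroup σ J : Set (SpecialLinearGroup n k)) :=
    H303.isClosed_formGroup (continuous_of_norm hσ) _
  exact H15.hmg_cl hσ hF hGT.ge le_rfl hcl (hGT.le.trans (Subgroup.le_topologicalClosure _))

theorem nm_cont : Continuous fun g : FormGroup σ J => nmM (ta g.1) := by
  have h1 : Continuous fun g : FormGroup σ J => g.1.1 :=
    continuous_subtype_val.comp continuous_subtype_val
  have h0 : Continuous fun g : FormGroup σ J => (g⁻¹).1.1 := h1.comp continuous_inv
  refine continuous_norm.comp (continuous_pi fun i => continuous_pi fun j => ?_)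
  exact (continuous_apply_apply j i).comp h0

/-- **Unbounded sets are Moore sets.** -/
theorem moore_nm [ProperSpace k] (hσ : ∀ x, ‖σ x‖ = ‖x‖) (hF : Frm σ ε J)
    {T : Set (FormGroup σ J)} (hT : ∀ C : ℝ, ∃ g ∈ T, C ≤ nmM (ta g.1)) : Moore T := by
  choose b hb hbt using fun N : ℕ => hT N
  have ht : Tendsto (fun N => nmM (ta (b N).1)) atTop atTop :=
    tendsto_atTop_mono hbt tendsto_natCast_atTop_atTop
  exact H714.Sp.moore_of_tendsto (hmg_frm hσ hF) (H714.Sp.tendsto_cocompact_of nm_cont ht)
    (Eventually.of_forall hb)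

/-- The centre consists of scalars. -/
theorem center_scal (hσ : ∀ x, ‖σ x‖ = ‖x‖) (hF : Frm σ ε J) {z : FormGroup σ J}
    (hz : z ∈ Subgroup.center (FormGroup σ J)) : z.1 ∈ scal k n := by
  obtain ⟨a, -, ha⟩ := center_smul hF (GT_le hF) le_rfl hz
  refine ⟨a, ?_⟩
  rw [ext_iff_vecMul]
  intro x
  rw [ha, vecMul_smul, vecMul_one]

/-- The scalars are central. -/
theorem scal_center {z : FormGroup σ J} (hz : z.1 ∈ scal k n) :
    z ∈ Subgroup.center (FormGroup σ J) := by
  obtain ⟨a, ha⟩ := hz
  refine Subgroup.mem_center_iff.2 fun g => Subtype.ext (Subtype.ext ?_)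
  change g.1.1 * z.1.1 = z.1.1 * g.1.1
  rw [ha, Matrix.mul_smul, Matrix.smul_mul, Matrix.mul_one, Matrix.one_mul]

/-- **The centre is the group of scalars.** -/
theorem center_eq (hσ : ∀ x, ‖σ x‖ = ‖x‖) (hF : Frm σ ε J) :
    Subgroup.center (FormGroup σ J) = (scal k n).subgroupOf (FormGroup σ J) :=
  Subgroup.ext fun _ => ⟨fun h => center_scal hσ hF h, fun h => scal_center h⟩

/-! ### Topology of the group of a form and of its quotients -/

theorem isClosed_form (hσ : ∀ x, ‖σ x‖ = ‖x‖) :
    IsClosed (FormGroup σ J : Set (SpecialLinearGroup n k)) :=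
  H303.isClosed_formGroup (continuous_of_norm hσ) _

theorem t2_form : T2Space (FormGroup σ J) := t2_G

theorem lc_form [ProperSpace k] (hσ : ∀ x, ‖σ x‖ = ‖x‖) : LocallyCompactSpace (FormGroup σ J) :=
  lc_G (isClosed_form hσ)

theorem sc_form [ProperSpace k] : SecondCountableTopology (FormGroup σ J) := sc_G

theorem finite_le (hF : Frm σ ε J) {Z : Subgroup (FormGroup σ J)}
    (hZ : Z ≤ Subgroup.center (FormGroup σ J)) : (Z : Set (FormGroup σ J)).Finite := by
  haveI := finite_center hF (GT_le hF) (le_refl (FormGroup σ J))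
  exact (Set.toFinite (Subgroup.center (FormGroup σ J) : Set (FormGroup σ J))).subset hZ

theorem t2_quo (hF : Frm σ ε J) {Z : Subgroup (FormGroup σ J)} [Z.Normal]
    (hZ : Z ≤ Subgroup.center (FormGroup σ J)) : T2Space (FormGroup σ J ⧸ Z) := by
  haveI : T2Space (FormGroup σ J) := t2_form
  haveI : IsClosed (Z : Set (FormGroup σ J)) := (finite_le hF hZ).isClosed
  infer_instance

theorem lc_quo [ProperSpace k] (hσ : ∀ x, ‖σ x‖ = ‖x‖) (Z : Subgroup (FormGroup σ J))
    [Z.Normal] : LocallyCompactSpace (FormGroup σ J ⧸ Z) := by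
  haveI : LocallyCompactSpace (FormGroup σ J) := lc_form hσ
  infer_instance

theorem sc_quo [ProperSpace k] (Z : Subgroup (FormGroup σ J)) [Z.Normal] :
    SecondCountableTopology (FormGroup σ J ⧸ Z) := by
  haveI : SecondCountableTopology (FormGroup σ J) := sc_form
  infer_instance

/-- the quotient map is proper -/
theorem proper_quo (hF : Frm σ ε J) {Z : Subgroup (FormGroup σ J)} [Z.Normal]
    (hZ : Z ≤ Subgroup.center (FormGroup σ J)) (C : Set (FormGroup σ J ⧸ Z)) (hC : IsCompact C) :
    IsCompact (QuotientGroup.mk' Z ⁻¹' C) :=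
  H793.proper_mk Z (finite_le hF hZ).isCompact C hC

end gen

section adm

variable {k : Type} [NontriviallyNormedField k] [ProperSpace k] [MeasurableSpace k] {ι : Type}
  [Fintype ι] [DecidableEq ι] {s : ℕ} {σ : k →+* k} {ε : k} {J₀ : Matrix ι ι k}
  (hσ : ∀ x, ‖σ x‖ = ‖x‖) (hF : Frm σ ε (hyp (s + 2) ε J₀)) {w : k} (hw : w ≠ 0) (hσw : σ w = w)
  (μ₁ : Measure k) (μ₂ : Measure (V2 σ ε))

include hσ in
/-- **Proper quotients of the group of a form are admissible source groups.** -/
theorem adm_of {E : Type} [Group E] [TopologicalSpace E] [IsTopologicalGroup E]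
    (p : FormGroup σ (hyp (s + 2) ε J₀) →* E) (hc : Continuous p) (hs : Function.Surjective p)
    (hz : ∀ g, p g = 1 → g ∈ Subgroup.center (FormGroup σ (hyp (s + 2) ε J₀)))
    (hp : ∀ C : Set E, IsCompact C → IsCompact (p ⁻¹' C)) : Adm (lt hF hw hσw μ₁ μ₂) p where
  tg := inferInstance
  cι := hc
  sur := hs
  ker g hg := center_scal hσ hF (hz g hg)
  coc b hb := by
    rw [hasBasis_cocompact.tendsto_right_iff]
    intro C hC
    obtain ⟨M, hM⟩ := ((hp C hC).image nm_cont).bddAbove
    filter_upwards [hb.eventually_gt_atTop M] with i hi hmem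
    exact absurd (hM ⟨_, hmem, rfl⟩) (not_le.2 hi)
  moore T hT := H714.Sp.moore_image p hc hs (moore_nm hσ hF hT)

include hσ in
/-- **The group of a form is admissible.** -/
theorem adm_id : Adm (lt hF hw hσw μ₁ μ₂) (MonoidHom.id (FormGroup σ (hyp (s + 2) ε J₀))) :=
  adm_of hσ hF hw hσw μ₁ μ₂ (MonoidHom.id _) continuous_id Function.surjective_id
    (fun g hg => by
      have h : g = 1 := hg
      rw [h]
      exact Subgroup.one_mem _) fun C hC => hC

include hσ in
/-- **The quotient by a central subgroup is admissible.** -/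
theorem adm_quo (Z : Subgroup (FormGroup σ (hyp (s + 2) ε J₀))) [Z.Normal]
    (hZ : Z ≤ Subgroup.center _) : Adm (lt hF hw hσw μ₁ μ₂) (QuotientGroup.mk' Z) := by
  exact adm_of hσ hF hw hσw μ₁ μ₂ (QuotientGroup.mk' Z) continuous_quotient_mk'
    (QuotientGroup.mk'_surjective Z) (fun g hg => hZ ((QuotientGroup.eq_one_iff g).1 hg))
    fun C hC => proper_quo hF hZ C hC

include hσ in
/-- **The quotient by the centre is admissible.** -/
theorem adm_cen : Adm (lt hF hw hσw μ₁ μ₂)
    (QuotientGroup.mk' (Subgroup.center (FormGroup σ (hyp (s + 2) ε J₀)))) :=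
  adm_quo hσ hF hw hσw μ₁ μ₂ _ le_rfl

end adm

end Vale.Agent.P092.H874.CLAdm
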