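import Vale.Agent.P092.H325.ClXc
import Vale.Agent.P092.CL.Lt

/-!
P092, TEAM P, CL-TOP (helper874): the inputs `Sc`, `Nmc` of `CL.coreE_of` for the letters `CL.lt`.
-/

set_option linter.all false

open Matrix Filter Topology Set MeasureTheory

namespace Vale.Agent.P092.H874.CLAdm

open Vale.Agent.P092.H303 (FormGroup hyp Idx)
open Vale.Agent.P092.H714.Cl
open Vale.Agent.P092.H416.CL (rho)
open Vale.Agent.P092.CL (ta nmM scal lt Lt V2)

section gen

variable {n : Type} [Fintype n] [DecidableEq n] {k : Type} [NontriviallyNormedField k]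
  {σ : k →+* k} {J : Matrix n n k} {N : ℕ}

/-- the two sizes agree -/
theorem nm_rho (e : n ≃ Fin (N + 1)) (g : FormGroup σ J) :
    SN.nm (rho e σ J g) = nmM (ta g.1) := by
  refine le_antisymm ?_ ?_
  · unfold SN.nm
    refine (pi_norm_le_iff_of_nonneg (norm_nonneg _)).2 fun i => ?_
    refine (pi_norm_le_iff_of_nonneg (norm_nonneg _)).2 fun j => ?_
    change ‖ta g.1 (e.symm i) (e.symm j)‖ ≤ ‖(fun i j => ta g.1 i j : n → n → k)‖
    exact (norm_le_pi_norm (fun j => ta g.1 (e.symm i) j) (e.symm j)).trans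
      (norm_le_pi_norm (fun i j => ta g.1 i j : n → n → k) (e.symm i))
  · unfold nmM
    refine (pi_norm_le_iff_of_nonneg (norm_nonneg _)).2 fun i => ?_
    refine (pi_norm_le_iff_of_nonneg (norm_nonneg _)).2 fun j => ?_
    have h : ta g.1 i j = (rho e σ J g).1 (e i) (e j) := by
      change (g.1⁻¹).1ᵀ i j = (g.1⁻¹).1ᵀ (e.symm (e i)) (e.symm (e j))
      rw [e.symm_apply_apply, e.symm_apply_apply]
    rw [h]
    exact (norm_le_pi_norm (fun j => (rho e σ J g).1 (e i) j) (e j)).trans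
      (norm_le_pi_norm (fun i j => (rho e σ J g).1 i j : Fin (N + 1) → Fin (N + 1) → k) (e i))

end gen

section lt

variable {k : Type} [NontriviallyNormedField k] [MeasurableSpace k] {ι : Type}
  [Fintype ι] [DecidableEq ι] {s : ℕ} {σ : k →+* k} {ε : k} {J₀ : Matrix ι ι k} {N : ℕ}
  (e : Idx (s + 2) ι ≃ Fin (N + 1)) (hF : Frm σ ε (hyp (s + 2) ε J₀)) {w : k} (hw : w ≠ 0)
  (hσw : σ w = w) (μ₁ : Measure k) (μ₂ : Measure (V2 σ ε))

/-- **the scalars of `CL.lt` are scalar matrices** -/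
theorem sc_lt : H325.CL.Sc e (lt hF hw hσw μ₁ μ₂) := by
  intro z hz
  have h1 : (z.1)⁻¹ ∈ scal k (Idx (s + 2) ι) := inv_mem hz
  obtain ⟨c, hc⟩ := h1
  refine ⟨c, ?_⟩
  change ((z.1⁻¹).1)ᵀ.submatrix e.symm e.symm = c • 1
  rw [hc, transpose_smul, transpose_one]
  ext i j
  simp [Matrix.one_apply]

/-- **the size of `CL.lt`** -/
theorem nmc_lt : H325.CL.Nmc e (lt hF hw hσw μ₁ μ₂) := fun C =>
  ⟨C, fun g hg => by
    have h := nm_rho e g
    rw [h] at hg
    exact hg⟩

end lt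

end Vale.Agent.P092.H874.CLAdm
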