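import Vale.Agent.P092.H464.Pv

/-!
P092, TEAM N, block [N-K-LIN] (helper874): functional calculus of a finitely additive projection
valued measure for bounded measurable functions.
-/

namespace Vale.Agent.P092.H874

set_option linter.unusedSectionVars false

open MeasureTheory Filter Topology
open Vale.Agent.P092.H464 (Pv CI)

variable {K : Type*} [NormedAddCommGroup K] [InnerProductSpace ℂ K] [CompleteSpace K]
variable {X : Type*} [MeasurableSpace X] {P : Set X → (K →L[ℂ] K)}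

/-- `W = ∫ F dP` up to an error `δ` -/
structure AFn (P : Set X → (K →L[ℂ] K)) (δ : ℝ) (F : X → ℂ) (W : K →L[ℂ] K) : Prop where
  comm : ∀ A, MeasurableSet A → W * P A = P A * W
  approx : ∀ A, MeasurableSet A → ∀ (c : ℂ) (ε : ℝ), 0 ≤ ε →
    (∀ x ∈ A, ‖F x - c‖ ≤ ε) → ‖(W - c • 1) * P A‖ ≤ ε + δ

/-- `W = ∫ F dP` -/
structure Fn (P : Set X → (K →L[ℂ] K)) (F : X → ℂ) (W : K →L[ℂ] K) : Prop where
  comm : ∀ A, MeasurableSet A → W * P A = P A * W
  approx : ∀ A, MeasurableSet A → ∀ (c : ℂ) (ε : ℝ), 0 ≤ ε →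
    (∀ x ∈ A, ‖F x - c‖ ≤ ε) → ‖(W - c • 1) * P A‖ ≤ ε

theorem Fn.afn {F : X → ℂ} {W : K →L[ℂ] K} (h : Fn P F W) : AFn P 0 F W :=
  ⟨h.comm, fun A hA c ε hε hF => by rw [add_zero]; exact h.approx A hA c ε hε hF⟩

theorem AFn.fn {F : X → ℂ} {W : K →L[ℂ] K} (h : AFn P 0 F W) : Fn P F W :=
  ⟨h.comm, fun A hA c ε hε hF => by
    have := h.approx A hA c ε hε hF
    rwa [add_zero] at this⟩

/-- the norm of a block diagonal operator -/
theorem block (hP : Pv P) {ι : Type*} (s : Finset ι) (A : ι → Set X)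
    (hA : ∀ i ∈ s, MeasurableSet (A i)) (hd : ∀ i ∈ s, ∀ j ∈ s, i ≠ j → Disjoint (A i) (A j))
    {T : K →L[ℂ] K} (hT : ∀ i ∈ s, T * P (A i) = P (A i) * T) {ε : ℝ} (hε : 0 ≤ ε)
    (hn : ∀ i ∈ s, ‖T * P (A i)‖ ≤ ε) : ‖T * P (⋃ i ∈ s, A i)‖ ≤ ε := by
  refine ContinuousLinearMap.opNorm_le_bound _ hε fun ξ => ?_
  have hcard : ∀ x, ∀ t ⊆ s, (∀ i ∈ t, x ∈ A i) → t.card ≤ 1 := by
    intro x t ht htx
    rw [Finset.card_le_one]
    intro i hi j hj
    by_contra hij
    exact Set.disjoint_left.1 (hd i (ht hi) j (ht hj) hij) (htx i hi) (htx j hj)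
  have e1 : (T * P (⋃ i ∈ s, A i)) ξ = ∑ i ∈ s, P (A i) ((T * P (A i)) ξ) := by
    rw [hP.sum s A hA hd, Finset.mul_sum, _root_.sum_apply]
    refine Finset.sum_congr rfl fun i hi => ?_
    have e2 : T * P (A i) = P (A i) * (T * P (A i)) := by
      rw [← mul_assoc, ← hT i hi, mul_assoc, hP.idem (hA i hi)]
    conv_lhs => rw [e2]
    rfl
  have h1 := hP.mult' s A hA 1 hcard fun i => (T * P (A i)) ξ
  rw [← e1] at h1
  have h2 : ∑ i ∈ s, ‖(T * P (A i)) ξ‖ ^ 2 ≤ ε ^ 2 * ‖ξ‖ ^ 2 := by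
    calc ∑ i ∈ s, ‖(T * P (A i)) ξ‖ ^ 2 ≤ ∑ i ∈ s, ε ^ 2 * ‖P (A i) ξ‖ ^ 2 := by
          refine Finset.sum_le_sum fun i hi => ?_
          have e3 : (T * P (A i)) ξ = (T * P (A i)) (P (A i) ξ) := by
            have : T * P (A i) = (T * P (A i)) * P (A i) := by
              rw [mul_assoc, hP.idem (hA i hi)]
            conv_lhs => rw [this]
            rfl
          rw [e3, ← mul_pow]
          refine pow_le_pow_left₀ (norm_nonneg _) ?_ 2
          exact ((T * P (A i)).le_opNorm _).trans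
            (mul_le_mul_of_nonneg_right (hn i hi) (norm_nonneg _))
      _ = ε ^ 2 * ∑ i ∈ s, ‖P (A i) ξ‖ ^ 2 := by rw [Finset.mul_sum]
      _ ≤ ε ^ 2 * ‖ξ‖ ^ 2 :=
          mul_le_mul_of_nonneg_left (hP.bessel s A hA hd ξ) (sq_nonneg _)
  have h3 : ‖(T * P (⋃ i ∈ s, A i)) ξ‖ ^ 2 ≤ (ε * ‖ξ‖) ^ 2 := by
    rw [mul_pow]
    refine h1.trans ?_
    push_cast
    rw [one_mul]
    exact h2
  exact le_of_sq_le_sq h3 (by positivity)

/-- partitions adapted to a bounded measurable function -/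
theorem exists_part {F : X → ℂ} (hF : Measurable F) {M : ℝ} (hM : ∀ x, ‖F x‖ ≤ M) {δ : ℝ}
    (hδ : 0 < δ) : ∃ (s : Finset (ℤ × ℤ)) (A : ℤ × ℤ → Set X), (∀ i, MeasurableSet (A i)) ∧
      (∀ i j, i ≠ j → Disjoint (A i) (A j)) ∧ (⋃ i ∈ s, A i) = Set.univ ∧
      ∀ i, ∀ x ∈ A i, ∀ x' ∈ A i, ‖F x - F x'‖ ≤ δ := by
  obtain ⟨n, hn⟩ : ∃ n : ℕ, 2 / δ < n := exists_nat_gt _
  have hn0 : (0 : ℝ) < n := lt_trans (by positivity) hn
  have hnδ : 2 / (n : ℝ) ≤ δ := by
    rw [div_le_iff₀ hn0]; rw [div_lt_iff₀ hδ] at hn; linarith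
  obtain ⟨m, hm⟩ : ∃ m : ℕ, n * M < m := exists_nat_gt _
  have hre : Measurable fun x => ⌊(n : ℝ) * (F x).re⌋ :=
    Int.measurable_floor.comp ((Complex.measurable_re.comp hF).const_mul _)
  have him : Measurable fun x => ⌊(n : ℝ) * (F x).im⌋ :=
    Int.measurable_floor.comp ((Complex.measurable_im.comp hF).const_mul _)
  refine ⟨Finset.Icc (-(m : ℤ) - 1) m ×ˢ Finset.Icc (-(m : ℤ) - 1) m,
    fun i => {x | ⌊(n : ℝ) * (F x).re⌋ = i.1 ∧ ⌊(n : ℝ) * (F x).im⌋ = i.2}, ?_, ?_, ?_, ?_⟩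
  · intro i
    exact (hre (measurableSet_singleton i.1)).inter (him (measurableSet_singleton i.2))
  · intro i j hij
    refine Set.disjoint_left.2 fun x hx hy => hij ?_
    exact Prod.ext (hx.1.symm.trans hy.1) (hx.2.symm.trans hy.2)
  · refine Set.eq_univ_of_forall fun x => ?_
    have hb : ∀ a : ℝ, |a| ≤ M → ⌊(n : ℝ) * a⌋ ∈ Finset.Icc (-(m : ℤ) - 1) m := by
      intro a ha
      have h1 : |(n : ℝ) * a| ≤ m := by
        rw [abs_mul, abs_of_pos hn0]
        exact (mul_le_mul_of_nonneg_left ha hn0.le).trans hm.le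
      rw [abs_le] at h1
      rw [Finset.mem_Icc]
      constructor
      · rw [Int.le_floor]; push_cast; linarith [h1.1]
      · have h2 := Int.floor_le ((n : ℝ) * a)
        have h3 : ((⌊(n : ℝ) * a⌋ : ℤ) : ℝ) ≤ ((m : ℤ) : ℝ) := by push_cast; linarith [h1.2]
        exact_mod_cast h3
    simp only [Set.mem_iUnion]
    refine ⟨(⌊(n : ℝ) * (F x).re⌋, ⌊(n : ℝ) * (F x).im⌋), ?_, rfl, rfl⟩
    exact Finset.mem_product.2 ⟨hb _ ((Complex.abs_re_le_norm _).trans (hM x)),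
      hb _ ((Complex.abs_im_le_norm _).trans (hM x))⟩
  · rintro i x ⟨h1, h2⟩ x' ⟨h3, h4⟩
    have key : ∀ a b : ℝ, ⌊(n : ℝ) * a⌋ = ⌊(n : ℝ) * b⌋ → |a - b| ≤ 1 / n := by
      intro a b h
      have h5 := (Int.abs_sub_lt_one_of_floor_eq_floor h).le
      rw [← mul_sub, abs_mul, abs_of_pos hn0] at h5
      rw [le_div_iff₀ hn0]; linarith
    have h5 := key _ _ (h1.trans h3.symm)
    have h6 := key _ _ (h2.trans h4.symm)
    have h7 := Complex.norm_le_abs_re_add_abs_im (F x - F x')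
    rw [Complex.sub_re, Complex.sub_im] at h7
    calc ‖F x - F x'‖ ≤ 1 / n + 1 / n := h7.trans (add_le_add h5 h6)
      _ = 2 / n := by ring
      _ ≤ δ := hnδ

/-- main tool: two approximations -/
theorem block_all (hP : Pv P) {F : X → ℂ} (hF : Measurable F) {M : ℝ} (hM : ∀ x, ‖F x‖ ≤ M)
    {T : K →L[ℂ] K} (hT : ∀ A, MeasurableSet A → T * P A = P A * T) {D : Set X}
    (hD : MeasurableSet D) {ε τ : ℝ} (hε : 0 ≤ ε) (hτ : 0 < τ)
    (h : ∀ A, MeasurableSet A → A ⊆ D → A.Nonempty → (∀ x ∈ A, ∀ x' ∈ A, ‖F x - F x'‖ ≤ τ) →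
      ‖T * P A‖ ≤ ε) : ‖T * P D‖ ≤ ε := by
  obtain ⟨s, A, hA, hd, hu, hs⟩ := exists_part hF hM hτ
  have e : D = ⋃ i ∈ s, (D ∩ A i) := by
    rw [← Set.inter_iUnion₂, hu, Set.inter_univ]
  rw [e]
  refine block hP s (fun i => D ∩ A i) (fun i _ => hD.inter (hA i)) (fun i _ j _ hij => ?_)
    (fun i _ => hT _ (hD.inter (hA i))) hε fun i _ => ?_
  · exact (hd i j hij).mono Set.inter_subset_right Set.inter_subset_right
  · rcases Set.eq_empty_or_nonempty (D ∩ A i) with h0 | h0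
    · rw [h0, hP.empty, mul_zero, norm_zero]; exact hε
    · exact h _ (hD.inter (hA i)) Set.inter_subset_left h0
        fun x hx x' hx' => hs i x hx.2 x' hx'.2

theorem AFn.dist (hP : Pv P) {F : X → ℂ} (hF : Measurable F) {M : ℝ} (hM : ∀ x, ‖F x‖ ≤ M)
    {δ δ' : ℝ} (hδ : 0 ≤ δ) (hδ' : 0 ≤ δ') {W W' : K →L[ℂ] K} (h : AFn P δ F W)
    (h' : AFn P δ' F W') : ‖W - W'‖ ≤ δ + δ' := by
  refine le_of_forall_pos_le_add fun τ hτ => ?_
  have key : ‖(W - W') * P Set.univ‖ ≤ δ + δ' + τ := by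
    refine block_all hP hF hM (T := W - W') (fun A hA => ?_) MeasurableSet.univ (by positivity)
      (half_pos hτ) fun A hA _ hne hs => ?_
    · rw [sub_mul, mul_sub, h.comm A hA, h'.comm A hA]
    · obtain ⟨x0, hx0⟩ := hne
      have h1 := h.approx A hA (F x0) (τ / 2) (by positivity) fun x hx => hs x hx x0 hx0
      have h2 := h'.approx A hA (F x0) (τ / 2) (by positivity) fun x hx => hs x hx x0 hx0
      have e : (W - W') * P A = (W - F x0 • 1) * P A - (W' - F x0 • 1) * P A := by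
        rw [← sub_mul]; congr 1; abel
      rw [e]
      refine (norm_sub_le _ _).trans ?_
      linarith
  rw [hP.univ, mul_one] at key
  exact key

theorem Fn.unique (hP : Pv P) {F : X → ℂ} (hF : Measurable F) {M : ℝ} (hM : ∀ x, ‖F x‖ ≤ M)
    {W W' : K →L[ℂ] K} (h : Fn P F W) (h' : Fn P F W') : W = W' := by
  have := AFn.dist hP hF hM le_rfl le_rfl h.afn h'.afn
  rw [add_zero] at this
  exact sub_eq_zero.1 (norm_le_zero_iff.1 this)

theorem Fn.add (hP : Pv P) {F F' : X → ℂ} (hF : Measurable F) {M : ℝ} (hM : ∀ x, ‖F x‖ ≤ M)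
    {W W' : K →L[ℂ] K} (h : Fn P F W)
    (h' : Fn P F' W') : Fn P (fun x => F x + F' x) (W + W') := by
  refine ⟨fun A hA => by rw [add_mul, mul_add, h.comm A hA, h'.comm A hA], ?_⟩
  intro A hA c ε hε hs
  refine le_of_forall_pos_le_add fun τ hτ => ?_
  refine block_all hP hF hM (T := W + W' - c • 1) (fun B hB => ?_) hA (by positivity)
    (half_pos hτ) fun B hB hBA hne hs2 => ?_
  · rw [sub_mul, mul_sub, add_mul, mul_add, h.comm B hB, h'.comm B hB, smul_one_mul,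
      mul_smul_one]
  · obtain ⟨x0, hx0⟩ := hne
    have h1 := h.approx B hB (F x0) (τ / 2) (by positivity) fun x hx => hs2 x hx x0 hx0
    have h2 := h'.approx B hB (c - F x0) (ε + τ / 2) (by positivity) fun x hx => by
      have e : F' x - (c - F x0) = (F x + F' x - c) - (F x - F x0) := by ring
      rw [e]
      exact (norm_sub_le _ _).trans (add_le_add (hs x (hBA hx)) (hs2 x hx x0 hx0))
    have e : (W + W' - c • 1) * P B = (W - F x0 • 1) * P B + (W' - (c - F x0) • 1) * P B := by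
      rw [← add_mul]; congr 1
      rw [sub_smul]; abel
    rw [e]
    refine (norm_add_le _ _).trans ?_
    linarith

theorem Fn.const (hP : Pv P) (a : ℂ) : Fn P (fun _ => a) (a • (1 : K →L[ℂ] K)) := by
  refine ⟨fun A _ => by rw [smul_one_mul, mul_smul_one], fun A hA c ε hε hs => ?_⟩
  rcases Set.eq_empty_or_nonempty A with h0 | ⟨x0, hx0⟩
  · rw [h0, hP.empty, mul_zero, norm_zero]; exact hε
  · rw [← sub_smul, smul_one_mul, norm_smul]
    calc ‖a - c‖ * ‖P A‖ ≤ ε * 1 :=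
          mul_le_mul (hs x0 hx0) (hP.opNorm_le hA) (norm_nonneg _) hε
      _ = ε := mul_one _

theorem Fn.smul (hP : Pv P) {F : X → ℂ} {W : K →L[ℂ] K} (h : Fn P F W) (a : ℂ) :
    Fn P (fun x => a * F x) (a • W) := by
  by_cases ha : a = 0
  · subst ha
    have := Fn.const (K := K) hP 0
    simpa using this
  refine ⟨fun A hA => by rw [smul_mul_assoc, mul_smul_comm, h.comm A hA], ?_⟩
  intro A hA c ε hε hs
  have h1 := h.approx A hA (a⁻¹ * c) (ε / ‖a‖) (by positivity) fun x hx => by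
    rw [le_div_iff₀ (norm_pos_iff.2 ha), mul_comm, ← norm_mul, mul_sub, mul_inv_cancel_left₀ ha]
    exact hs x hx
  have e : (a • W - c • 1) * P A = a • ((W - (a⁻¹ * c) • 1) * P A) := by
    rw [← smul_mul_assoc, smul_sub, smul_smul, mul_inv_cancel_left₀ ha]
  rw [e, norm_smul]
  have ha' : 0 < ‖a‖ := norm_pos_iff.2 ha
  calc ‖a‖ * _ ≤ ‖a‖ * (ε / ‖a‖) := mul_le_mul_of_nonneg_left h1 (norm_nonneg _)
    _ = ε := by field_simp

theorem Fn.norm_le (hP : Pv P) {F : X → ℂ} {W : K →L[ℂ] K} (h : Fn P F W) {M : ℝ}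
    (hM0 : 0 ≤ M) (hM : ∀ x, ‖F x‖ ≤ M) : ‖W‖ ≤ M := by
  have := h.approx Set.univ MeasurableSet.univ 0 M hM0 fun x _ => by rw [sub_zero]; exact hM x
  rwa [hP.univ, mul_one, zero_smul, sub_zero] at this

/-- the simple approximations -/
theorem exists_afn (hP : Pv P) {F : X → ℂ} (hF : Measurable F) {M : ℝ} (hM : ∀ x, ‖F x‖ ≤ M)
    {δ : ℝ} (hδ : 0 < δ) : ∃ W, AFn P δ F W := by
  classical
  obtain ⟨s, A, hA, hd, hu, hs⟩ := exists_part hF hM hδ
  let c : ℤ × ℤ → ℂ := fun i => if h : (A i).Nonempty then F h.choose else 0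
  have hc : ∀ i, ∀ x ∈ A i, ‖F x - c i‖ ≤ δ := by
    intro i x hx
    have hne : (A i).Nonempty := ⟨x, hx⟩
    have e : c i = F hne.choose := dif_pos hne
    rw [e]
    exact hs i x hx _ hne.choose_spec
  have hcomm : ∀ B, MeasurableSet B →
      (∑ i ∈ s, c i • P (A i)) * P B = P B * ∑ i ∈ s, c i • P (A i) := by
    intro B hB
    rw [Finset.sum_mul, Finset.mul_sum]
    refine Finset.sum_congr rfl fun i _ => ?_
    rw [smul_mul_assoc, mul_smul_comm, hP.comm (hA i) hB]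
  refine ⟨∑ i ∈ s, c i • P (A i), hcomm, ?_⟩
  intro B hB a ε hε hFa
  have e : B = ⋃ i ∈ s, (B ∩ A i) := by
    rw [← Set.inter_iUnion₂, hu, Set.inter_univ]
  have hpos : 0 ≤ ε + δ := by linarith
  have key : ‖(∑ i ∈ s, c i • P (A i) - a • 1) * P (⋃ i ∈ s, (B ∩ A i))‖ ≤ ε + δ := by
    refine block hP s (fun i => B ∩ A i) (fun i _ => hB.inter (hA i)) (fun i _ j _ hij => ?_)
      (fun i _ => ?_) hpos fun i hi => ?_
    · exact (hd i j hij).mono Set.inter_subset_right Set.inter_subset_right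
    · rw [sub_mul, mul_sub, hcomm _ (hB.inter (hA i)), smul_one_mul, mul_smul_one]
    · have e1 : (∑ j ∈ s, c j • P (A j)) * P (B ∩ A i) = c i • P (B ∩ A i) := by
        rw [Finset.sum_mul, Finset.sum_eq_single i]
        · rw [smul_mul_assoc, hP.mul_of_subset' (hB.inter (hA i)) (hA i) Set.inter_subset_right]
        · intro j _ hj
          rw [smul_mul_assoc, hP.disj (hA j) (hB.inter (hA i))
            ((hd j i hj).mono_right Set.inter_subset_right), smul_zero]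
        · intro h; exact absurd hi h
      rw [sub_mul, e1, smul_one_mul, ← sub_smul, norm_smul]
      rcases Set.eq_empty_or_nonempty (B ∩ A i) with h0 | ⟨x, hx⟩
      · rw [h0, hP.empty, norm_zero, mul_zero]; exact hpos
      · have h1 : ‖c i - a‖ ≤ ε + δ := by
          have e2 : c i - a = (F x - a) - (F x - c i) := by ring
          rw [e2]
          exact (norm_sub_le _ _).trans (add_le_add (hFa x hx.1) (hc i x hx.2))
        calc ‖c i - a‖ * ‖P (B ∩ A i)‖ ≤ (ε + δ) * 1 :=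
              mul_le_mul h1 (hP.opNorm_le (hB.inter (hA i))) (norm_nonneg _) hpos
          _ = ε + δ := mul_one _
  rwa [← e] at key

/-- the functional calculus -/
theorem exists_fn (hP : Pv P) {F : X → ℂ} (hF : Measurable F) {M : ℝ} (hM : ∀ x, ‖F x‖ ≤ M) :
    ∃ W, Fn P F W := by
  have hδ : ∀ n : ℕ, (0 : ℝ) < 1 / (n + 1) := fun n => by positivity
  choose V hV using fun n : ℕ => exists_afn hP hF hM (hδ n)
  have hlim : Tendsto (fun n : ℕ => (1 : ℝ) / (n + 1)) atTop (𝓝 0) :=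
    tendsto_one_div_add_atTop_nhds_zero_nat
  have hcau : CauchySeq V := by
    refine cauchySeq_of_le_tendsto_0 (fun n : ℕ => 2 * ((1 : ℝ) / (n + 1))) ?_ ?_
    · intro n m N hn hm
      rw [dist_eq_norm]
      refine (AFn.dist hP hF hM (hδ n).le (hδ m).le (hV n) (hV m)).trans ?_
      have h1 : (1 : ℝ) / (n + 1) ≤ 1 / (N + 1) := by
        apply one_div_le_one_div_of_le (by positivity)
        have : (N : ℝ) ≤ n := by exact_mod_cast hn
        linarith
      have h2 : (1 : ℝ) / (m + 1) ≤ 1 / (N + 1) := by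
        apply one_div_le_one_div_of_le (by positivity)
        have : (N : ℝ) ≤ m := by exact_mod_cast hm
        linarith
      linarith
    · have := hlim.const_mul 2
      rwa [mul_zero] at this
  obtain ⟨W, hW⟩ := cauchySeq_tendsto_of_complete hcau
  refine ⟨W, fun A hA => ?_, fun A hA c ε hε hs => ?_⟩
  · have h1 : Tendsto (fun n => V n * P A) atTop (𝓝 (W * P A)) := hW.mul_const _
    have h2 : Tendsto (fun n => P A * V n) atTop (𝓝 (P A * W)) := hW.const_mul _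
    refine tendsto_nhds_unique h1 (h2.congr fun n => ?_)
    exact ((hV n).comm A hA).symm
  · have h1 : Tendsto (fun n => ‖(V n - c • 1) * P A‖) atTop (𝓝 ‖(W - c • 1) * P A‖) :=
      ((hW.sub_const _).mul_const _).norm
    have h2 : Tendsto (fun n : ℕ => ε + (1 : ℝ) / (n + 1)) atTop (𝓝 (ε + 0)) :=
      hlim.const_add ε
    rw [add_zero] at h2
    exact le_of_tendsto_of_tendsto' h1 h2 fun n => (hV n).approx A hA c ε hε hs

/-- finite sums -/
theorem Fn.sum (hP : Pv P) {ι : Type*} (s : Finset ι) (F : ι → X → ℂ) (W : ι → (K →L[ℂ] K))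
    (hF : ∀ i ∈ s, Measurable (F i)) (M : ι → ℝ) (hM : ∀ i ∈ s, ∀ x, ‖F i x‖ ≤ M i)
    (h : ∀ i ∈ s, Fn P (F i) (W i)) : Fn P (fun x => ∑ i ∈ s, F i x) (∑ i ∈ s, W i) := by
  classical
  induction s using Finset.induction_on with
  | empty =>
    have := Fn.const (K := K) hP 0
    simpa using this
  | insert a s ha ih =>
    have h1 := ih (fun i hi => hF i (Finset.mem_insert_of_mem hi))
      (fun i hi => hM i (Finset.mem_insert_of_mem hi))
      (fun i hi => h i (Finset.mem_insert_of_mem hi))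
    have h2 := Fn.add hP (hF a (Finset.mem_insert_self _ _)) (hM a (Finset.mem_insert_self _ _))
      (h a (Finset.mem_insert_self _ _)) h1
    simp only [Finset.sum_insert ha]
    exact h2

end Vale.Agent.P092.H874
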