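import Vale.Agent.P092.H874.KLc

/-!
P092, TEAM N, block [N-K-LIN] (helper874): **the plane estimate for linear maps**, all charts.
-/

namespace Vale.Agent.P092.H874

set_option linter.unusedSectionVars false

open Matrix MeasureTheory Finset
open Vale.Agent.P092.H464 (Pv CI Adm Ch uq pp hh Fun disc meas_disc meas_Ch Inc kakC kakC_nonneg
  kak_chart)
open Vale.Agent.P092.H175.Kb (card_square et1 et2)

variable {K : Type*} [NormedAddCommGroup K] [InnerProductSpace ℂ K] [CompleteSpace K]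
variable {E : Type*} [NormedAddCommGroup E] [NormedSpace ℝ E]
variable {X Y : Type*} [MeasurableSpace X] [MeasurableSpace Y]

/-- the data of one linear map `T`, one function `G` on its target, one point `η` (the kernel of the
large part) and the large direction `β` -/
structure LinDat (C r : ℝ) (T : (Fin 3 → ℝ) →ₗ[ℝ] E) (G : E → ℂ) (η : Fin 3 → ℝ) (β : E) :
    Prop where
  le : ∀ i, |η i| ≤ 1
  rem : ∀ v, ‖T v - (η ⬝ᵥ v) • β‖ ≤ C * r * ‖v‖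
  bet : ‖β‖ ≤ C
  low : ∀ v, |η ⬝ᵥ v| ≤ C * ‖T v‖
  low' : ∀ v, r * ‖v‖ ≤ C * ‖T v‖
  g1 : ∀ a, ‖G a‖ ≤ 1
  g2 : ∀ a b, ‖G a - G b‖ * ‖a‖ ≤ C * ‖a - b‖
  g3 : ∀ (c : ℝ) a, c ≠ 0 → G (c • a) = G a

theorem dot_perm (σ : Equiv.Perm (Fin 3)) (η v : Fin 3 → ℝ) :
    (η ∘ σ) ⬝ᵥ v = η ⬝ᵥ (v ∘ σ.symm) := by
  rw [dotProduct, dotProduct, ← Equiv.sum_comp σ.symm]
  simp

theorem norm_perm (σ : Equiv.Perm (Fin 3)) (v : Fin 3 → ℝ) : ‖v ∘ σ‖ = ‖v‖ := by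
  refine le_antisymm ?_ ?_
  · exact (pi_norm_le_iff_of_nonneg (norm_nonneg _)).2 fun i => norm_le_pi_norm v (σ i)
  · refine (pi_norm_le_iff_of_nonneg (norm_nonneg _)).2 fun i => ?_
    have := norm_le_pi_norm (v ∘ σ) (σ.symm i)
    simpa using this

/-- the permuted linear map -/
def Tp (σ : Equiv.Perm (Fin 3)) (T : (Fin 3 → ℝ) →ₗ[ℝ] E) : (Fin 3 → ℝ) →ₗ[ℝ] E :=
  T.comp (LinearMap.funLeft ℝ ℝ σ.symm)

theorem Tp_apply (σ : Equiv.Perm (Fin 3)) (T : (Fin 3 → ℝ) →ₗ[ℝ] E) (v : Fin 3 → ℝ) :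
    Tp σ T v = T (v ∘ σ.symm) := rfl

theorem Tp_comp (σ : Equiv.Perm (Fin 3)) (T : (Fin 3 → ℝ) →ₗ[ℝ] E) (v : Fin 3 → ℝ) :
    Tp σ T (v ∘ σ) = T v := by
  rw [Tp_apply]
  congr 1
  funext i
  simp

theorem LinDat.perm {C r : ℝ} {T : (Fin 3 → ℝ) →ₗ[ℝ] E} {G : E → ℂ} {η : Fin 3 → ℝ} {β : E}
    (h : LinDat C r T G η β) (σ : Equiv.Perm (Fin 3)) : LinDat C r (Tp σ T) G (η ∘ σ) β := by
  refine ⟨fun i => h.le _, fun v => ?_, h.bet, fun v => ?_, fun v => ?_, h.g1, h.g2, h.g3⟩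
  · rw [Tp_apply, dot_perm, ← norm_perm σ.symm v]; exact h.rem _
  · rw [Tp_apply, dot_perm]; exact h.low _
  · rw [Tp_apply, ← norm_perm σ.symm v]; exact h.low' _

theorem LinDat.dat {C r : ℝ} {T : (Fin 3 → ℝ) →ₗ[ℝ] E} {G : E → ℂ} {η : Fin 3 → ℝ} {β : E}
    (h : LinDat C r T G η β) (hC : 1 ≤ C) (hr : 0 < r) (hr1 : r ≤ 1) (hp : η 0 = 1) :
    Dat C r T G η β :=
  ⟨hC, hr, hr1, hp, h.le, h.rem, h.bet, h.low, h.low', h.g1, h.g2, h.g3⟩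

/-- the ball of points around `η` -/
def Bl (t : Y → Fin 3 → ℝ) (η : Fin 3 → ℝ) (δ : ℝ) : Set Y :=
  {y | ∀ i j, |t y i * η j - t y j * η i| ≤ δ * ‖t y‖}

theorem Bl_meas {t : Y → Fin 3 → ℝ} (ht : Measurable t) (η : Fin 3 → ℝ) (δ : ℝ) :
    MeasurableSet (Bl t η δ) := by
  have e : Bl t η δ = ⋂ i, ⋂ j, {y | |t y i * η j - t y j * η i| ≤ δ * ‖t y‖} := by
    ext y; simp [Bl]
  rw [e]
  refine MeasurableSet.iInter fun i => MeasurableSet.iInter fun j => ?_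
  have h1 : Measurable fun y => |t y i * η j - t y j * η i| :=
    ((((measurable_pi_apply i).comp ht).mul_const _).sub
      (((measurable_pi_apply j).comp ht).mul_const _)).abs
  exact measurableSet_le h1 (ht.norm.const_mul _)

theorem Bl_perm (σ : Equiv.Perm (Fin 3)) (t : Y → Fin 3 → ℝ) (η : Fin 3 → ℝ) (δ : ℝ) :
    Bl (fun y => t y ∘ σ) (η ∘ σ) δ = Bl t η δ := by
  ext y
  simp only [Bl, Set.mem_ofPred_eq, Function.comp_apply, norm_perm]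
  constructor
  · intro h i j
    have := h (σ.symm i) (σ.symm j)
    simpa using this
  · intro h i j
    exact h _ _

theorem Bl_disc {t : Y → Fin 3 → ℝ} (ht0 : ∀ ν, t ν ≠ 0) {η : Fin 3 → ℝ} (hp : η 0 = 1)
    (hle : ∀ i, |η i| ≤ 1) {δ : ℝ} (h0 : 0 ≤ δ) (h2 : 2 * δ ≤ 1) :
    Bl t η δ ⊆ disc t (-(η 1), -(η 2)) (2 * δ) := by
  intro y hy
  have key : ∀ i, |t y i - t y 0 * η i| ≤ δ * ‖t y‖ := by
    intro i
    have := hy i 0
    rwa [hp, mul_one] at this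
  have hi : ∀ i, |t y i| ≤ |t y 0| + δ * ‖t y‖ := by
    intro i
    have h3 : t y i = (t y i - t y 0 * η i) + t y 0 * η i := by ring
    have h4 : |t y 0 * η i| ≤ |t y 0| := by
      rw [abs_mul]; exact mul_le_of_le_one_right (abs_nonneg _) (hle i)
    calc |t y i| = |(t y i - t y 0 * η i) + t y 0 * η i| := by rw [← h3]
      _ ≤ |t y i - t y 0 * η i| + |t y 0 * η i| := abs_add_le _ _
      _ ≤ _ := by linarith [key i]
  have hn : ‖t y‖ ≤ |t y 0| + δ * ‖t y‖ :=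
    (pi_norm_le_iff_of_nonneg (by positivity)).2 fun i => hi i
  have hn2 : ‖t y‖ ≤ 2 * |t y 0| := by
    have : δ * ‖t y‖ ≤ 1 / 2 * ‖t y‖ := mul_le_mul_of_nonneg_right (by linarith) (norm_nonneg _)
    linarith
  have hpos : 0 < |t y 0| := by
    have := norm_pos_iff.2 (ht0 y)
    linarith
  have hne : t y 0 ≠ 0 := abs_pos.1 hpos
  have fin : ∀ i, |-(t y i) / t y 0 - -(η i)| ≤ 2 * δ := by
    intro i
    have e : -(t y i) / t y 0 - -(η i) = -((t y i - t y 0 * η i) / t y 0) := by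
      field_simp; ring
    rw [e, abs_neg, abs_div, div_le_iff₀ hpos]
    calc |t y i - t y 0 * η i| ≤ δ * ‖t y‖ := key i
      _ ≤ δ * (2 * |t y 0|) := mul_le_mul_of_nonneg_left hn2 h0
      _ = 2 * δ * |t y 0| := by ring
  exact ⟨hne, fin 1, fin 2⟩

theorem inc_perm (σ : Equiv.Perm (Fin 3)) (s : X → Fin 3 → ℝ) (t : Y → Fin 3 → ℝ) :
    Inc (fun x => s x ∘ σ) (fun y => t y ∘ σ) = Inc s t := by
  funext x ν
  have key : ∀ (s : X → Fin 3 → ℝ) (t : Y → Fin 3 → ℝ), Inc s t x ν = (t ν ⬝ᵥ s x = 0) := by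
    intro s t
    rw [dotProduct, Fin.sum_univ_three]; rfl
  rw [key, key]
  have e : (t ν ∘ σ) ⬝ᵥ (s x ∘ σ) = t ν ⬝ᵥ s x := by
    exact Equiv.sum_comp σ fun i => t ν i * s x i
  rw [e]

section pivot

variable {s : X → Fin 3 → ℝ} {t : Y → Fin 3 → ℝ} {Pb Pc : Set X → (K →L[ℂ] K)}
  {Ll Lm : Set Y → (K →L[ℂ] K)}

/-- multiplicity -/
theorem mult_est {Lm : Set Y → (K →L[ℂ] K)} (hm : Pv Lm) {κ : Type*} (S : Finset κ)
    (η : κ → Fin 3 → ℝ) {r : ℝ} (hr : 0 < r) {N : ℕ}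
    (hcnt : ∀ n : ℝ × ℝ, #{k ∈ S | |-(η k 1) - n.1| ≤ r ∧ |-(η k 2) - n.2| ≤ r} ≤ N)
    (B : κ → Set Y) (hB : ∀ k ∈ S, MeasurableSet (B k)) {CB : ℝ}
    (hBd : ∀ k ∈ S, B k ⊆ disc t (-(η k 1), -(η k 2)) (CB * r)) (ζ : K) :
    ∑ k ∈ S, ‖Lm (B k) ζ‖ ^ 2 ≤ (2 * ⌈CB⌉₊ + 1) ^ 2 * N * ‖ζ‖ ^ 2 := by
  classical
  have h1 := hm.mult S B hB ((2 * ⌈CB⌉₊ + 1) ^ 2 * N) (fun ν T' hT' h => by
    refine le_trans (Finset.card_le_card ?_)
      (card_square (fun k => (-(η k 1), -(η k 2))) S hr hcnt ⌈CB⌉₊ (et1 (t ν), et2 (t ν)))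
    intro k hk
    have h1 := hBd k (hT' hk) (h k hk)
    have h2 : CB * r ≤ ⌈CB⌉₊ * r := mul_le_mul_of_nonneg_right (Nat.le_ceil CB) hr.le
    refine Finset.mem_filter.2 ⟨hT' hk, ?_, ?_⟩
    · rw [abs_sub_comm]; exact h1.2.1.trans h2
    · rw [abs_sub_comm]; exact h1.2.2.trans h2) ζ
  push_cast at h1
  exact h1

/-- the number of indices -/
theorem card_est {κ : Type*} (S : Finset κ) (η : κ → Fin 3 → ℝ) {r : ℝ} (hr : 0 < r) (hr1 : r ≤ 1)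
    {N : ℕ} (hcnt : ∀ n : ℝ × ℝ, #{k ∈ S | |-(η k 1) - n.1| ≤ r ∧ |-(η k 2) - n.2| ≤ r} ≤ N)
    (hle : ∀ k ∈ S, ∀ i, |η k i| ≤ 1) : (S.card : ℝ) * r ^ 2 ≤ 25 * N := by
  classical
  have hr' : 1 ≤ 1 / r := by rw [le_div_iff₀ hr]; linarith
  have hN0 : (0 : ℝ) ≤ N := Nat.cast_nonneg N
  have hm1 : (1 : ℝ) ≤ (⌈1 / r⌉₊ : ℝ) * r := by
    have := mul_le_mul_of_nonneg_right (Nat.le_ceil (1 / r)) hr.le
    rwa [div_mul_cancel₀ _ hr.ne'] at this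
  have h1 := card_square (fun k => (-(η k 1), -(η k 2))) S hr hcnt ⌈1 / r⌉₊ (0, 0)
  have h2 : S.filter (fun k => |((-(η k 1), -(η k 2)) : ℝ × ℝ).1 - ((0 : ℝ), (0 : ℝ)).1| ≤
      ⌈1 / r⌉₊ * r ∧ |((-(η k 1), -(η k 2)) : ℝ × ℝ).2 - ((0 : ℝ), (0 : ℝ)).2| ≤
      ⌈1 / r⌉₊ * r) = S := by
    refine Finset.filter_true_of_mem fun k hk => ?_
    simp only [sub_zero, abs_neg]
    exact ⟨(hle k hk 1).trans hm1, (hle k hk 2).trans hm1⟩
  rw [h2] at h1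
  have h3 : (⌈1 / r⌉₊ : ℝ) ≤ 2 / r := by
    have := (Nat.ceil_lt_add_one (by positivity : (0 : ℝ) ≤ 1 / r)).le
    calc (⌈1 / r⌉₊ : ℝ) ≤ 1 / r + 1 := this
      _ ≤ 1 / r + 1 / r := by linarith
      _ = 2 / r := by ring
  have h4 : 2 * (⌈1 / r⌉₊ : ℝ) + 1 ≤ 5 / r := by
    calc 2 * (⌈1 / r⌉₊ : ℝ) + 1 ≤ 2 * (2 / r) + 1 / r := by linarith
      _ = 5 / r := by ring
  have h5 : (2 * (⌈1 / r⌉₊ : ℝ) + 1) ^ 2 ≤ (5 / r) ^ 2 :=
    pow_le_pow_left₀ (by positivity) h4 2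
  have h6 : (S.card : ℝ) ≤ (2 * (⌈1 / r⌉₊ : ℝ) + 1) ^ 2 * N := by exact_mod_cast h1
  calc (S.card : ℝ) * r ^ 2 ≤ ((5 / r) ^ 2 * N) * r ^ 2 :=
        mul_le_mul_of_nonneg_right (h6.trans (mul_le_mul_of_nonneg_right h5 hN0)) (sq_nonneg _)
    _ = 25 * N := by field_simp; ring

/-- the constant of one pivot -/
noncomputable def pvC (C : ℝ) : ℝ :=
  100 * C ^ 2 + 3 * (2 * lcC C (2 * C) + 2 * ((2 * ⌈2 * C⌉₊ + 1) ^ 2 + 25 * C ^ 6))

theorem pvC_nonneg {C : ℝ} (hC : 0 ≤ C) : 0 ≤ pvC C := by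
  have h1 : 0 ≤ lcC C (2 * C) := lcC_nonneg (by linarith)
  have h2 : (0 : ℝ) ≤ C ^ 6 := by positivity
  unfold pvC
  positivity

/-- one pivot coordinate -/
theorem pivot_est (hs : Measurable s) (ht : Measurable t) (hs0 : ∀ x, s x ≠ 0)
    (ht0 : ∀ ν, t ν ≠ 0) (hb : Pv Pb) (hc : Pv Pc) (hl : Pv Ll) (hm : Pv Lm)
    (hbl : CI (Inc s t) Pb Ll) (hcl : CI (Inc s t) Pc Ll) (hcm : CI (Inc s t) Pc Lm)
    {κ : Type*} (S : Finset κ) (T : κ → (Fin 3 → ℝ) →ₗ[ℝ] E) (G : κ → E → ℂ)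
    (η : κ → Fin 3 → ℝ) (β : κ → E) (W : κ → (K →L[ℂ] K)) {C r : ℝ} (hC : 1 ≤ C) (hr : 0 < r)
    (hr1 : r ≤ 1) {N : ℕ} (hp : ∀ k ∈ S, η k 0 = 1)
    (hD : ∀ k ∈ S, LinDat C r (T k) (G k) (η k) (β k))
    (hcnt : ∀ n : Fin 3 → ℝ, #{k ∈ S | ∀ i, |η k i - n i| ≤ r} ≤ N)
    (hG : ∀ k ∈ S, Measurable fun x => G k (T k (s x)))
    (hW : ∀ k ∈ S, Fn Pb (fun x => G k (T k (s x))) (W k)) (ξ : K) :
    ∑ k ∈ S, ‖Lm (Bl t (η k) (C * r)) (W k ξ)‖ ^ 2 ≤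
      pvC C * N * (1 + Real.log (1 / r)) ^ 6 * ‖ξ‖ ^ 2 := by
  classical
  have hC0 : 0 ≤ C := by linarith
  set ℓ : ℝ := 1 + Real.log (1 / r) with hℓ
  have hr' : 1 ≤ 1 / r := by rw [le_div_iff₀ hr]; linarith
  have hlog0 : 0 ≤ Real.log (1 / r) := Real.log_nonneg hr'
  have hℓ1 : 1 ≤ ℓ := by linarith
  have hℓ6 : (1 : ℝ) ≤ ℓ ^ 6 := one_le_pow₀ hℓ1
  have hN0 : (0 : ℝ) ≤ N := Nat.cast_nonneg N
  have hBm : ∀ k ∈ S, MeasurableSet (Bl t (η k) (C * r)) := fun k _ => Bl_meas ht _ _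
  have hcnt2 : ∀ n : ℝ × ℝ, #{k ∈ S | |-(η k 1) - n.1| ≤ r ∧ |-(η k 2) - n.2| ≤ r} ≤ N := by
    intro n
    refine (Finset.card_le_card ?_).trans (hcnt ![1, -n.1, -n.2])
    intro k hk
    obtain ⟨hkS, h1, h2⟩ := Finset.mem_filter.1 hk
    refine Finset.mem_filter.2 ⟨hkS, fun i => ?_⟩
    fin_cases i
    · change |η k 0 - 1| ≤ r
      rw [hp k hkS, sub_self, abs_zero]; exact hr.le
    · change |η k 1 - -n.1| ≤ r
      have e : η k 1 - -n.1 = -(-(η k 1) - n.1) := by ring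
      rw [e, abs_neg]; exact h1
    · change |η k 2 - -n.2| ≤ r
      have e : η k 2 - -n.2 = -(-(η k 2) - n.2) := by ring
      rw [e, abs_neg]; exact h2
  have hcard := card_est S η hr hr1 hcnt2 fun k hk => (hD k hk).le
  have hlc : 0 ≤ lcC C (2 * C) := lcC_nonneg (by linarith)
  have hC6 : 0 ≤ C ^ 6 := by positivity
  by_cases hbig : 1 < 2 * (C * r)
  · -- large `r`
    have h1 : ∑ k ∈ S, ‖Lm (Bl t (η k) (C * r)) (W k ξ)‖ ^ 2 ≤ S.card * ‖ξ‖ ^ 2 := by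
      calc _ ≤ ∑ _k ∈ S, ‖ξ‖ ^ 2 := by
            refine Finset.sum_le_sum fun k hk => pow_le_pow_left₀ (norm_nonneg _) ?_ 2
            refine (hm.norm_le (hBm k hk) _).trans ?_
            have h2 := (hW k hk).norm_le hb zero_le_one fun x => (hD k hk).g1 _
            calc _ ≤ ‖W k‖ * ‖ξ‖ := (W k).le_opNorm ξ
              _ ≤ 1 * ‖ξ‖ := mul_le_mul_of_nonneg_right h2 (norm_nonneg _)
              _ = ‖ξ‖ := one_mul _
        _ = _ := by rw [Finset.sum_const, nsmul_eq_mul]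
    have h2 : (S.card : ℝ) ≤ 100 * C ^ 2 * N := by
      have h3 : 1 ≤ 4 * C ^ 2 * r ^ 2 := by nlinarith
      have h4 : (0 : ℝ) ≤ S.card := Nat.cast_nonneg _
      calc (S.card : ℝ) = S.card * 1 := (mul_one _).symm
        _ ≤ S.card * (4 * C ^ 2 * r ^ 2) := mul_le_mul_of_nonneg_left h3 h4
        _ = 4 * C ^ 2 * (S.card * r ^ 2) := by ring
        _ ≤ 4 * C ^ 2 * (25 * N) := mul_le_mul_of_nonneg_left hcard (by positivity)
        _ = _ := by ring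
    calc _ ≤ S.card * ‖ξ‖ ^ 2 := h1
      _ ≤ 100 * C ^ 2 * N * ‖ξ‖ ^ 2 := mul_le_mul_of_nonneg_right h2 (sq_nonneg _)
      _ ≤ pvC C * N * ‖ξ‖ ^ 2 := by
          refine mul_le_mul_of_nonneg_right (mul_le_mul_of_nonneg_right ?_ hN0) (sq_nonneg _)
          unfold pvC
          have : (0 : ℝ) ≤ 3 * (2 * lcC C (2 * C) + 2 * ((2 * ⌈2 * C⌉₊ + 1) ^ 2 + 25 * C ^ 6)) := by
            positivity
          linarith
      _ = pvC C * N * 1 * ‖ξ‖ ^ 2 := by rw [mul_one]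
      _ ≤ pvC C * N * ℓ ^ 6 * ‖ξ‖ ^ 2 := by
          refine mul_le_mul_of_nonneg_right (mul_le_mul_of_nonneg_left hℓ6 ?_) (sq_nonneg _)
          exact mul_nonneg (pvC_nonneg hC0) hN0
  · push Not at hbig
    -- the two charts
    have hDd : ∀ k ∈ S, Dat C r (T k) (G k) (η k) (β k) := fun k hk =>
      (hD k hk).dat hC hr hr1 (hp k hk)
    have hBd : ∀ k ∈ S, Bl t (η k) (C * r) ⊆ disc t (-(η k 1), -(η k 2)) (2 * C * r) := by
      intro k hk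
      have := Bl_disc ht0 (hp k hk) (hD k hk).le (δ := C * r) (by positivity) hbig
      rwa [← mul_assoc] at this
    have hch1 := fun ζ => chart_est hs ht hs0 ht0 hb hc hl hm hbl hcl hcm S T G η β W hr hr1 hDd
      hcnt2 hG hW (fun k => Bl t (η k) (C * r)) hBm (CB := 2 * C) (by linarith) hBd ζ
    let σ : Equiv.Perm (Fin 3) := Equiv.swap 1 2
    have hσ0 : σ 0 = 0 := by decide
    have hσ1 : σ 1 = 2 := by decide
    have hσ2 : σ 2 = 1 := by decide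
    have hsσ : Measurable fun x => s x ∘ σ :=
      measurable_pi_iff.2 fun i => (measurable_pi_apply (σ i)).comp hs
    have htσ : Measurable fun x => t x ∘ σ :=
      measurable_pi_iff.2 fun i => (measurable_pi_apply (σ i)).comp ht
    have hsσ0 : ∀ x, s x ∘ σ ≠ 0 := fun x h => hs0 x (by
      rw [← norm_eq_zero, ← norm_perm σ, h, norm_zero])
    have htσ0 : ∀ x, t x ∘ σ ≠ 0 := fun x h => ht0 x (by
      rw [← norm_eq_zero, ← norm_perm σ, h, norm_zero])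
    have hch2 := fun ζ => chart_est (s := fun x => s x ∘ σ) (t := fun y => t y ∘ σ) hsσ htσ hsσ0
      htσ0 hb hc hl hm (by rw [inc_perm]; exact hbl) (by rw [inc_perm]; exact hcl)
      (by rw [inc_perm]; exact hcm) S (fun k => Tp σ (T k)) G (fun k => η k ∘ σ) β W hr hr1
      (fun k hk => ((hD k hk).perm σ).dat hC hr hr1 (by
        rw [Function.comp_apply, hσ0]; exact hp k hk))
      (fun n => by
        refine le_trans (Finset.card_le_card ?_) (hcnt2 (n.2, n.1))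
        intro k hk
        obtain ⟨hkS, h1, h2⟩ := Finset.mem_filter.1 hk
        rw [Function.comp_apply, hσ1] at h1
        rw [Function.comp_apply, hσ2] at h2
        exact Finset.mem_filter.2 ⟨hkS, h2, h1⟩)
      (fun k hk => by simp only [Tp_comp]; exact hG k hk)
      (fun k hk => by simp only [Tp_comp]; exact hW k hk)
      (fun k => Bl t (η k) (C * r)) hBm (CB := 2 * C) (by linarith)
      (fun k hk => by
        have := Bl_disc htσ0 (η := η k ∘ σ) (by rw [Function.comp_apply, hσ0]; exact hp k hk)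
          (fun i => (hD k hk).le _) (δ := C * r) (by positivity) hbig
        rw [Bl_perm, ← mul_assoc] at this
        exact this) ζ
    -- the three sets
    set A1 : Set X := Ch s with hA1
    set A2 : Set X := Ch (fun x => s x ∘ σ) with hA2
    have hA1m : MeasurableSet A1 := meas_Ch hs
    have hA2m : MeasurableSet A2 := meas_Ch hsσ
    set A3 : Set X := (A1 ∪ A2)ᶜ with hA3
    have hA3m : MeasurableSet A3 := (hA1m.union hA2m).compl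
    have hrest : ∀ x ∈ A3, s x 1 = 0 ∧ s x 2 = 0 := by
      intro x hx
      have h1 : x ∉ A1 := fun h => hx (Or.inl h)
      have h2 : x ∉ A2 := fun h => hx (Or.inr h)
      have h1' : ¬ (s x 1 ≠ 0 ∧ |s x 2 / s x 1| ≤ 1) := h1
      have h2' : ¬ (s x 2 ≠ 0 ∧ |s x 1 / s x 2| ≤ 1) := by
        have e : x ∈ A2 ↔ (s x (σ 1) ≠ 0 ∧ |s x (σ 2) / s x (σ 1)| ≤ 1) := Iff.rfl
        rw [e, hσ1, hσ2] at h2
        exact h2
      by_cases ha : s x 1 = 0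
      · refine ⟨ha, ?_⟩
        by_contra hb'
        apply h2'
        refine ⟨hb', ?_⟩
        rw [ha, zero_div, abs_zero]; exact zero_le_one
      · exfalso
        have h3 : 1 < |s x 2 / s x 1| := not_le.1 fun h4 => h1' ⟨ha, h4⟩
        have hb' : s x 2 ≠ 0 := by
          intro h5; rw [h5, zero_div, abs_zero] at h3; linarith
        apply h2'
        refine ⟨hb', ?_⟩
        have e : s x 1 / s x 2 = (s x 2 / s x 1)⁻¹ := (inv_div _ _).symm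
        rw [e, abs_inv]
        exact inv_le_one_of_one_le₀ h3.le
    have hdec : (1 : K →L[ℂ] K) = Pb A1 + Pb A2 * Pb (A2 \ A1) + Pb A3 := by
      have e1 : Pb A2 * Pb (A2 \ A1) = Pb (A2 \ A1) :=
        hb.mul_of_subset' (hA2m.diff hA1m) hA2m Set.sdiff_subset
      have e2 : Pb (A1 ∪ A2) = Pb A1 + Pb (A2 \ A1) := by
        rw [← hb.add hA1m (hA2m.diff hA1m) Set.disjoint_sdiff_right, Set.union_sdiff_self]
      rw [e1, ← e2, hA3, hb.compl _ (hA1m.union hA2m)]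
      abel
    -- the rest
    have hR : ∀ k ∈ S, ‖(W k - G k (β k) • 1) * Pb A3‖ ≤ C ^ 3 * r := by
      intro k hk
      refine (hW k hk).approx A3 hA3m _ _ (by positivity) fun x hx => ?_
      obtain ⟨h1, h2⟩ := hrest x hx
      have e : η k ⬝ᵥ s x = s x 0 := by
        rw [dot3, hp k hk, h1, h2]; ring
      have hn : ‖s x‖ ≤ |s x 0| := norm3 le_rfl (by rw [h1, abs_zero]; exact abs_nonneg _)
        (by rw [h2, abs_zero]; exact abs_nonneg _)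
      have hpos : 0 < |s x 0| := lt_of_lt_of_le (norm_pos_iff.2 (hs0 x)) hn
      have h3 := (hDd k hk).far (s x)
      rw [e] at h3
      have h4 : ‖G k (T k (s x)) - G k (β k)‖ * |s x 0| ≤ (C ^ 3 * r) * |s x 0| := by
        refine h3.trans ?_
        calc C ^ 3 * (r * ‖s x‖) ≤ C ^ 3 * (r * |s x 0|) := by gcongr
          _ = _ := by ring
      exact le_of_mul_le_mul_right h4 hpos
    have hmul := fun ζ => mult_est (t := t) hm S η hr hcnt2 (fun k => Bl t (η k) (C * r)) hBm hBd ζ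
    have hRest : ∑ k ∈ S, ‖Lm (Bl t (η k) (C * r)) (W k (Pb A3 ξ))‖ ^ 2 ≤
        2 * ((2 * ⌈2 * C⌉₊ + 1) ^ 2 + 25 * C ^ 6) * N * ‖ξ‖ ^ 2 := by
      have h1 : ∀ k ∈ S, ‖Lm (Bl t (η k) (C * r)) (W k (Pb A3 ξ))‖ ^ 2 ≤
          2 * ‖Lm (Bl t (η k) (C * r)) (Pb A3 ξ)‖ ^ 2 + 2 * (C ^ 3 * r * ‖ξ‖) ^ 2 := by
        intro k hk
        have e : W k (Pb A3 ξ) = G k (β k) • Pb A3 ξ + ((W k - G k (β k) • 1) * Pb A3) ξ := by
          have e2 : ((W k - G k (β k) • 1) * Pb A3) ξ = W k (Pb A3 ξ) - G k (β k) • Pb A3 ξ := by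
            rw [sub_mul, smul_one_mul]; rfl
          rw [e2]; abel
        rw [e, map_add, map_smul]
        have h2 : ‖G k (β k) • Lm (Bl t (η k) (C * r)) (Pb A3 ξ)‖ ≤
            ‖Lm (Bl t (η k) (C * r)) (Pb A3 ξ)‖ := by
          rw [norm_smul]
          calc _ ≤ 1 * ‖Lm (Bl t (η k) (C * r)) (Pb A3 ξ)‖ :=
                mul_le_mul_of_nonneg_right ((hD k hk).g1 _) (norm_nonneg _)
            _ = _ := one_mul _
        have h3 : ‖Lm (Bl t (η k) (C * r)) (((W k - G k (β k) • 1) * Pb A3) ξ)‖ ≤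
            C ^ 3 * r * ‖ξ‖ :=
          (hm.norm_le (hBm k hk) _).trans ((ContinuousLinearMap.le_opNorm _ ξ).trans
            (mul_le_mul_of_nonneg_right (hR k hk) (norm_nonneg _)))
        have h4 := norm_add_le (G k (β k) • Lm (Bl t (η k) (C * r)) (Pb A3 ξ))
          (Lm (Bl t (η k) (C * r)) (((W k - G k (β k) • 1) * Pb A3) ξ))
        have h5 : ‖G k (β k) • Lm (Bl t (η k) (C * r)) (Pb A3 ξ) +
            Lm (Bl t (η k) (C * r)) (((W k - G k (β k) • 1) * Pb A3) ξ)‖ ≤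
            ‖Lm (Bl t (η k) (C * r)) (Pb A3 ξ)‖ + C ^ 3 * r * ‖ξ‖ := by linarith
        refine (pow_le_pow_left₀ (norm_nonneg _) h5 2).trans ?_
        nlinarith [sq_nonneg (‖Lm (Bl t (η k) (C * r)) (Pb A3 ξ)‖ - C ^ 3 * r * ‖ξ‖)]
      calc _ ≤ ∑ k ∈ S, (2 * ‖Lm (Bl t (η k) (C * r)) (Pb A3 ξ)‖ ^ 2 +
            2 * (C ^ 3 * r * ‖ξ‖) ^ 2) := Finset.sum_le_sum h1
        _ = 2 * ∑ k ∈ S, ‖Lm (Bl t (η k) (C * r)) (Pb A3 ξ)‖ ^ 2 +
            2 * C ^ 6 * ((S.card : ℝ) * r ^ 2) * ‖ξ‖ ^ 2 := by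
            rw [Finset.sum_add_distrib, ← Finset.mul_sum, Finset.sum_const, nsmul_eq_mul]; ring
        _ ≤ 2 * ((2 * ⌈2 * C⌉₊ + 1) ^ 2 * N * ‖ξ‖ ^ 2) + 2 * C ^ 6 * (25 * N) * ‖ξ‖ ^ 2 := by
            have h6 : ‖Pb A3 ξ‖ ^ 2 ≤ ‖ξ‖ ^ 2 :=
              pow_le_pow_left₀ (norm_nonneg _) (hb.norm_le hA3m ξ) 2
            have h7 := (hmul (Pb A3 ξ)).trans (mul_le_mul_of_nonneg_left h6 (by positivity))
            gcongr
        _ = _ := by ring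
    -- sum
    have hsum : ∀ k ∈ S, ‖Lm (Bl t (η k) (C * r)) (W k ξ)‖ ^ 2 ≤
        3 * (‖Lm (Bl t (η k) (C * r)) (W k (Pb A1 ξ))‖ ^ 2 +
          ‖Lm (Bl t (η k) (C * r)) (W k (Pb A2 (Pb (A2 \ A1) ξ)))‖ ^ 2 +
          ‖Lm (Bl t (η k) (C * r)) (W k (Pb A3 ξ))‖ ^ 2) := by
      intro k _
      have e : ξ = Pb A1 ξ + Pb A2 (Pb (A2 \ A1) ξ) + Pb A3 ξ := by
        have := congrArg (fun T : K →L[ℂ] K => T ξ) hdec
        simpa using this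
      have e2 : Lm (Bl t (η k) (C * r)) (W k ξ) =
          Lm (Bl t (η k) (C * r)) (W k (Pb A1 ξ)) +
          Lm (Bl t (η k) (C * r)) (W k (Pb A2 (Pb (A2 \ A1) ξ))) +
          Lm (Bl t (η k) (C * r)) (W k (Pb A3 ξ)) := by
        conv_lhs => rw [e]
        rw [map_add, map_add, map_add, map_add]
      rw [e2]
      exact (pow_le_pow_left₀ (norm_nonneg _) norm_add₃_le 2).trans (sq3 _ _ _)
    have h2 : ∑ k ∈ S, ‖Lm (Bl t (η k) (C * r)) (W k (Pb A2 (Pb (A2 \ A1) ξ)))‖ ^ 2 ≤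
        lcC C (2 * C) * N * ℓ ^ 6 * ‖ξ‖ ^ 2 := by
      refine (hch2 (Pb (A2 \ A1) ξ)).trans ?_
      refine mul_le_mul_of_nonneg_left ?_ (by positivity)
      exact pow_le_pow_left₀ (norm_nonneg _) (hb.norm_le (hA2m.diff hA1m) ξ) 2
    calc _ ≤ ∑ k ∈ S, 3 * (‖Lm (Bl t (η k) (C * r)) (W k (Pb A1 ξ))‖ ^ 2 +
          ‖Lm (Bl t (η k) (C * r)) (W k (Pb A2 (Pb (A2 \ A1) ξ)))‖ ^ 2 +
          ‖Lm (Bl t (η k) (C * r)) (W k (Pb A3 ξ))‖ ^ 2) := Finset.sum_le_sum hsum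
      _ = 3 * (∑ k ∈ S, ‖Lm (Bl t (η k) (C * r)) (W k (Pb A1 ξ))‖ ^ 2 +
          ∑ k ∈ S, ‖Lm (Bl t (η k) (C * r)) (W k (Pb A2 (Pb (A2 \ A1) ξ)))‖ ^ 2 +
          ∑ k ∈ S, ‖Lm (Bl t (η k) (C * r)) (W k (Pb A3 ξ))‖ ^ 2) := by
          rw [← Finset.mul_sum, Finset.sum_add_distrib, Finset.sum_add_distrib]
      _ ≤ 3 * (lcC C (2 * C) * N * ℓ ^ 6 * ‖ξ‖ ^ 2 + lcC C (2 * C) * N * ℓ ^ 6 * ‖ξ‖ ^ 2 +
          2 * ((2 * ⌈2 * C⌉₊ + 1) ^ 2 + 25 * C ^ 6) * N * ‖ξ‖ ^ 2) :=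
          mul_le_mul_of_nonneg_left (add_le_add (add_le_add (hch1 ξ) h2) hRest) (by norm_num)
      _ ≤ 3 * (lcC C (2 * C) * N * ℓ ^ 6 * ‖ξ‖ ^ 2 + lcC C (2 * C) * N * ℓ ^ 6 * ‖ξ‖ ^ 2 +
          2 * ((2 * ⌈2 * C⌉₊ + 1) ^ 2 + 25 * C ^ 6) * N * ‖ξ‖ ^ 2 * ℓ ^ 6) := by
          refine mul_le_mul_of_nonneg_left (add_le_add le_rfl ?_) (by norm_num)
          exact le_mul_of_one_le_right (by positivity) hℓ6
      _ ≤ pvC C * N * ℓ ^ 6 * ‖ξ‖ ^ 2 := by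
          have e : pvC C * N * ℓ ^ 6 * ‖ξ‖ ^ 2 = 100 * C ^ 2 * N * ℓ ^ 6 * ‖ξ‖ ^ 2 +
              3 * (lcC C (2 * C) * N * ℓ ^ 6 * ‖ξ‖ ^ 2 + lcC C (2 * C) * N * ℓ ^ 6 * ‖ξ‖ ^ 2 +
              2 * ((2 * ⌈2 * C⌉₊ + 1) ^ 2 + 25 * C ^ 6) * N * ‖ξ‖ ^ 2 * ℓ ^ 6) := by
            unfold pvC; ring
          rw [e]
          have : 0 ≤ 100 * C ^ 2 * N * ℓ ^ 6 * ‖ξ‖ ^ 2 := by positivity
          linarith

/-- **the plane estimate for linear maps** -/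
theorem kak_lin (hs : Measurable s) (ht : Measurable t) (hs0 : ∀ x, s x ≠ 0)
    (ht0 : ∀ ν, t ν ≠ 0) (hb : Pv Pb) (hc : Pv Pc) (hl : Pv Ll) (hm : Pv Lm)
    (hbl : CI (Inc s t) Pb Ll) (hcl : CI (Inc s t) Pc Ll) (hcm : CI (Inc s t) Pc Lm)
    {κ : Type*} (S : Finset κ) (T : κ → (Fin 3 → ℝ) →ₗ[ℝ] E) (G : κ → E → ℂ)
    (η : κ → Fin 3 → ℝ) (β : κ → E) (W : κ → (K →L[ℂ] K)) {C r : ℝ} (hC : 1 ≤ C) (hr : 0 < r)
    (hr1 : r ≤ 1) {N : ℕ} (hp : ∀ k ∈ S, ∃ j, η k j = 1)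
    (hD : ∀ k ∈ S, LinDat C r (T k) (G k) (η k) (β k))
    (hcnt : ∀ n : Fin 3 → ℝ, #{k ∈ S | ∀ i, |η k i - n i| ≤ r} ≤ N)
    (hG : ∀ k ∈ S, Measurable fun x => G k (T k (s x)))
    (hW : ∀ k ∈ S, Fn Pb (fun x => G k (T k (s x))) (W k)) (ξ : K) :
    ∑ k ∈ S, ‖Lm (Bl t (η k) (C * r)) (W k ξ)‖ ^ 2 ≤
      3 * pvC C * N * (1 + Real.log (1 / r)) ^ 6 * ‖ξ‖ ^ 2 := by
  classical
  have key : ∀ j : Fin 3, ∑ k ∈ S.filter (fun k => η k j = 1),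
      ‖Lm (Bl t (η k) (C * r)) (W k ξ)‖ ^ 2 ≤
      pvC C * N * (1 + Real.log (1 / r)) ^ 6 * ‖ξ‖ ^ 2 := by
    intro j
    let σ : Equiv.Perm (Fin 3) := Equiv.swap 0 j
    have hσ0 : σ 0 = j := Equiv.swap_apply_left _ _
    have hsσ : Measurable fun x => s x ∘ σ :=
      measurable_pi_iff.2 fun i => (measurable_pi_apply (σ i)).comp hs
    have htσ : Measurable fun x => t x ∘ σ :=
      measurable_pi_iff.2 fun i => (measurable_pi_apply (σ i)).comp ht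
    have hsσ0 : ∀ x, s x ∘ σ ≠ 0 := fun x h => hs0 x (by
      rw [← norm_eq_zero, ← norm_perm σ, h, norm_zero])
    have htσ0 : ∀ x, t x ∘ σ ≠ 0 := fun x h => ht0 x (by
      rw [← norm_eq_zero, ← norm_perm σ, h, norm_zero])
    have h1 := pivot_est (s := fun x => s x ∘ σ) (t := fun y => t y ∘ σ) hsσ htσ hsσ0
      htσ0 hb hc hl hm (by rw [inc_perm]; exact hbl) (by rw [inc_perm]; exact hcl)
      (by rw [inc_perm]; exact hcm) (S.filter fun k => η k j = 1) (fun k => Tp σ (T k)) G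
      (fun k => η k ∘ σ) β W hC hr hr1 (N := N)
      (fun k hk => by rw [Function.comp_apply, hσ0]; exact (Finset.mem_filter.1 hk).2)
      (fun k hk => (hD k (Finset.mem_filter.1 hk).1).perm σ)
      (fun n => by
        refine le_trans (Finset.card_le_card ?_) (hcnt (n ∘ σ.symm))
        intro k hk
        obtain ⟨hkS, h1⟩ := Finset.mem_filter.1 hk
        refine Finset.mem_filter.2 ⟨(Finset.mem_filter.1 hkS).1, fun i => ?_⟩
        have := h1 (σ.symm i)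
        simpa using this)
      (fun k hk => by simp only [Tp_comp]; exact hG k (Finset.mem_filter.1 hk).1)
      (fun k hk => by simp only [Tp_comp]; exact hW k (Finset.mem_filter.1 hk).1) ξ
    simp only [Bl_perm] at h1
    exact h1
  have hcov : ∑ k ∈ S, ‖Lm (Bl t (η k) (C * r)) (W k ξ)‖ ^ 2 ≤
      ∑ j : Fin 3, ∑ k ∈ S.filter (fun k => η k j = 1),
        ‖Lm (Bl t (η k) (C * r)) (W k ξ)‖ ^ 2 := by
    have h1 : ∀ j : Fin 3, ∑ k ∈ S.filter (fun k => η k j = 1),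
        ‖Lm (Bl t (η k) (C * r)) (W k ξ)‖ ^ 2 =
        ∑ k ∈ S, if η k j = 1 then ‖Lm (Bl t (η k) (C * r)) (W k ξ)‖ ^ 2 else 0 := fun j =>
      Finset.sum_filter _ _
    simp only [h1]
    rw [Finset.sum_comm]
    refine Finset.sum_le_sum fun k hk => ?_
    obtain ⟨j, hj⟩ := hp k hk
    have h2 := Finset.single_le_sum (s := (Finset.univ : Finset (Fin 3)))
      (f := fun j => if η k j = 1 then ‖Lm (Bl t (η k) (C * r)) (W k ξ)‖ ^ 2 else 0)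
      (fun i _ => by split_ifs <;> positivity) (Finset.mem_univ j)
    simp only [hj, if_true] at h2
    exact h2
  refine hcov.trans ((Finset.sum_le_sum fun j _ => key j).trans (le_of_eq ?_))
  rw [Finset.sum_const, Finset.card_univ, Fintype.card_fin, nsmul_eq_mul]
  push_cast
  ring

end pivot

end Vale.Agent.P092.H874
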