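import Mathlib

/-!
P092, TEAM N, block [N-K-LIN] (helper874), part a: the function `v ↦ G (T v)` near the kernel of
`v ↦ η ⬝ᵥ v`, for a linear map `T` that is close to `(η ⬝ᵥ ·) β`: dyadic pieces.
-/

namespace Vale.Agent.P092.H874

set_option linter.unusedSectionVars false

open Matrix

variable {E : Type*} [NormedAddCommGroup E] [NormedSpace ℝ E]

/-- one linear map, one function, one point -/
structure Dat (C r : ℝ) (T : (Fin 3 → ℝ) →ₗ[ℝ] E) (G : E → ℂ) (η : Fin 3 → ℝ) (β : E) :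
    Prop where
  one : 1 ≤ C
  r0 : 0 < r
  r1 : r ≤ 1
  piv : η 0 = 1
  le : ∀ i, |η i| ≤ 1
  rem : ∀ v, ‖T v - (η ⬝ᵥ v) • β‖ ≤ C * r * ‖v‖
  bet : ‖β‖ ≤ C
  low : ∀ v, |η ⬝ᵥ v| ≤ C * ‖T v‖
  low' : ∀ v, r * ‖v‖ ≤ C * ‖T v‖
  g1 : ∀ a, ‖G a‖ ≤ 1
  g2 : ∀ a b, ‖G a - G b‖ * ‖a‖ ≤ C * ‖a - b‖
  g3 : ∀ (c : ℝ) a, c ≠ 0 → G (c • a) = G a

section dat

variable {C r : ℝ} {T : (Fin 3 → ℝ) →ₗ[ℝ] E} {G : E → ℂ} {η : Fin 3 → ℝ} {β : E}

theorem Dat.far (h : Dat C r T G η β) (v : Fin 3 → ℝ) :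
    ‖G (T v) - G β‖ * |η ⬝ᵥ v| ≤ C ^ 3 * (r * ‖v‖) := by
  have hC : 0 ≤ C := by linarith [h.one]
  have hr := h.r0
  by_cases hu : η ⬝ᵥ v = 0
  · rw [hu, abs_zero, mul_zero]; positivity
  · have e : G β = G ((η ⬝ᵥ v) • β) := (h.g3 _ _ hu).symm
    calc ‖G (T v) - G β‖ * |η ⬝ᵥ v| ≤ ‖G (T v) - G β‖ * (C * ‖T v‖) :=
          mul_le_mul_of_nonneg_left (h.low v) (norm_nonneg _)
      _ = C * (‖G (T v) - G ((η ⬝ᵥ v) • β)‖ * ‖T v‖) := by rw [← e]; ring
      _ ≤ C * (C * ‖T v - (η ⬝ᵥ v) • β‖) := mul_le_mul_of_nonneg_left (h.g2 _ _) hC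
      _ ≤ C * (C * (C * r * ‖v‖)) := by
          gcongr; exact h.rem v
      _ = C ^ 3 * (r * ‖v‖) := by ring

theorem Dat.two (h : Dat C r T G η β) (a : E) : ‖G a - G β‖ ≤ 2 :=
  (norm_sub_le _ _).trans (by linarith [h.g1 a, h.g1 β])

theorem Dat.near (h : Dat C r T G η β) {z z' : Fin 3 → ℝ} (hz : 1 ≤ ‖z‖) :
    ‖G (T z) - G (T z')‖ * r ≤ C ^ 3 * (|η ⬝ᵥ z - η ⬝ᵥ z'| + r * ‖z - z'‖) := by
  have hC : 0 ≤ C := by linarith [h.one]
  have hr := h.r0
  have h1 : r ≤ C * ‖T z‖ := by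
    have := h.low' z
    nlinarith
  have h2 : ‖T z - T z'‖ ≤ C * (|η ⬝ᵥ z - η ⬝ᵥ z'| + r * ‖z - z'‖) := by
    have e : T z - T z' = (T (z - z') - (η ⬝ᵥ (z - z')) • β) + (η ⬝ᵥ (z - z')) • β := by
      rw [map_sub]; abel
    rw [e]
    refine (norm_add_le _ _).trans ?_
    rw [norm_smul, Real.norm_eq_abs, dotProduct_sub]
    have h3 := h.rem (z - z')
    rw [dotProduct_sub] at h3
    have h4 : |η ⬝ᵥ z - η ⬝ᵥ z'| * ‖β‖ ≤ |η ⬝ᵥ z - η ⬝ᵥ z'| * C :=
      mul_le_mul_of_nonneg_left h.bet (abs_nonneg _)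
    linarith
  calc ‖G (T z) - G (T z')‖ * r ≤ ‖G (T z) - G (T z')‖ * (C * ‖T z‖) :=
        mul_le_mul_of_nonneg_left h1 (norm_nonneg _)
    _ = C * (‖G (T z) - G (T z')‖ * ‖T z‖) := by ring
    _ ≤ C * (C * ‖T z - T z'‖) := mul_le_mul_of_nonneg_left (h.g2 _ _) hC
    _ ≤ C * (C * (C * (|η ⬝ᵥ z - η ⬝ᵥ z'| + r * ‖z - z'‖))) := by gcongr
    _ = _ := by ring

theorem Dat.ann (h : Dat C r T G η β) {z z' : Fin 3 → ℝ} (hu : η ⬝ᵥ z ≠ 0) (hu' : η ⬝ᵥ z' ≠ 0) :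
    ‖G (T z) - G (T z')‖ * (|η ⬝ᵥ z| * |η ⬝ᵥ z'|) ≤
      C ^ 3 * (r * (‖z - z'‖ * |η ⬝ᵥ z'| + |η ⬝ᵥ z - η ⬝ᵥ z'| * ‖z'‖)) := by
  have hC : 0 ≤ C := by linarith [h.one]
  have hr := h.r0
  set u := η ⬝ᵥ z with hudef
  set u' := η ⬝ᵥ z' with hudef'
  have e1 : G (T z') = G ((u / u') • T z') := (h.g3 _ _ (div_ne_zero hu hu')).symm
  have hR : ‖T z - (u / u') • T z'‖ * |u'| ≤
      C * (r * (‖z - z'‖ * |u'| + |u - u'| * ‖z'‖)) := by
    have e : T z - (u / u') • T z' = (T (z - z') - (η ⬝ᵥ (z - z')) • β) +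
        (1 - u / u') • (T z' - u' • β) := by
      rw [map_sub, dotProduct_sub, ← hudef, ← hudef']
      have : (1 - u / u') • (T z' - u' • β) = T z' - (u / u') • T z' - (u' - u) • β := by
        rw [smul_sub, smul_smul, sub_smul, one_smul]
        congr 2
        field_simp
      rw [this, sub_smul, sub_smul]
      abel
    have h5 : ‖T z - (u / u') • T z'‖ ≤ C * r * ‖z - z'‖ + |1 - u / u'| * (C * r * ‖z'‖) := by
      rw [e]
      refine (norm_add_le _ _).trans (add_le_add (h.rem _) ?_)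
      rw [norm_smul, Real.norm_eq_abs]
      exact mul_le_mul_of_nonneg_left (h.rem z') (abs_nonneg _)
    have h6 : |1 - u / u'| * |u'| = |u - u'| := by
      rw [← abs_mul, abs_sub_comm u u']
      congr 1
      field_simp
    calc ‖T z - (u / u') • T z'‖ * |u'|
        ≤ (C * r * ‖z - z'‖ + |1 - u / u'| * (C * r * ‖z'‖)) * |u'| :=
          mul_le_mul_of_nonneg_right h5 (abs_nonneg _)
      _ = C * r * ‖z - z'‖ * |u'| + (|1 - u / u'| * |u'|) * (C * r * ‖z'‖) := by ring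
      _ = _ := by rw [h6]; ring
  calc ‖G (T z) - G (T z')‖ * (|u| * |u'|)
      ≤ ‖G (T z) - G (T z')‖ * (C * ‖T z‖ * |u'|) := by
        have := h.low z
        gcongr
    _ = C * |u'| * (‖G (T z) - G ((u / u') • T z')‖ * ‖T z‖) := by rw [← e1]; ring
    _ ≤ C * |u'| * (C * ‖T z - (u / u') • T z'‖) :=
        mul_le_mul_of_nonneg_left (h.g2 _ _) (by positivity)
    _ = C ^ 2 * (‖T z - (u / u') • T z'‖ * |u'|) := by ring
    _ ≤ C ^ 2 * (C * (r * (‖z - z'‖ * |u'| + |u - u'| * ‖z'‖))) :=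
        mul_le_mul_of_nonneg_left hR (by positivity)
    _ = _ := by ring

end dat

/-! ### cut-off functions -/

/-- `1` on `[-1,1]`, `0` outside `[-2,2]` -/
noncomputable def th (a : ℝ) : ℝ := max 0 (min 1 (2 - |a|))

theorem th_nonneg (a : ℝ) : 0 ≤ th a := le_max_left _ _

theorem th_le (a : ℝ) : th a ≤ 1 := max_le zero_le_one (min_le_left _ _)

theorem th_one {a : ℝ} (h : |a| ≤ 1) : th a = 1 := by
  rw [th, min_eq_left (by linarith), max_eq_right zero_le_one]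

theorem th_zero {a : ℝ} (h : 2 ≤ |a|) : th a = 0 := by
  rw [th]
  exact max_eq_left ((min_le_right _ _).trans (by linarith))

theorem th_lip (a b : ℝ) : |th a - th b| ≤ |a - b| := by
  rw [th, th]
  refine (abs_max_sub_max_le_max _ _ _ _).trans ?_
  rw [sub_self, abs_zero, max_eq_right (abs_nonneg _)]
  refine (abs_min_sub_min_le_max _ _ _ _).trans ?_
  rw [sub_self, abs_zero, max_eq_right (abs_nonneg _)]
  have e : 2 - |a| - (2 - |b|) = |b| - |a| := by ring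
  rw [e, abs_sub_comm a b]
  exact abs_abs_sub_abs_le b a

theorem th_meas : Measurable th := by
  unfold th; fun_prop

/-- the dyadic pieces -/
noncomputable def ph (r : ℝ) : ℕ → ℝ → ℝ
  | 0, u => th (u / r)
  | n + 1, u => th (u / (2 ^ (n + 1) * r)) - th (u / (2 ^ n * r))

theorem ph_meas (r : ℝ) (n : ℕ) : Measurable (ph r n) := by
  cases n with
  | zero => exact th_meas.comp (measurable_id.div_const _)
  | succ n =>
    exact (th_meas.comp (measurable_id.div_const (2 ^ (n + 1) * r))).sub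
      (th_meas.comp (measurable_id.div_const (2 ^ n * r)))

theorem ph_sum (r : ℝ) (L : ℕ) (u : ℝ) :
    ∑ n ∈ Finset.range (L + 1), ph r n u = th (u / (2 ^ L * r)) := by
  induction L with
  | zero => simp [ph]
  | succ L ih => rw [Finset.sum_range_succ, ih, ph]; ring

theorem ph_abs (r : ℝ) (n : ℕ) (u : ℝ) : |ph r n u| ≤ 1 := by
  cases n with
  | zero => rw [ph, abs_of_nonneg (th_nonneg _)]; exact th_le _
  | succ n =>
    rw [ph, abs_le]
    have h1 := th_nonneg (u / (2 ^ (n + 1) * r))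
    have h2 := th_le (u / (2 ^ (n + 1) * r))
    have h3 := th_nonneg (u / (2 ^ n * r))
    have h4 := th_le (u / (2 ^ n * r))
    constructor <;> linarith

theorem ph_out {r : ℝ} (hr : 0 < r) (n : ℕ) {u : ℝ} (h : 2 * (2 ^ n * r) ≤ |u|) :
    ph r n u = 0 := by
  have key : ∀ ρ : ℝ, 0 < ρ → 2 * ρ ≤ |u| → th (u / ρ) = 0 := by
    intro ρ hρ h
    refine th_zero ?_
    rw [abs_div, abs_of_pos hρ, le_div_iff₀ hρ]; exact h
  cases n with
  | zero => rw [ph]; rw [pow_zero, one_mul] at h; exact key r hr h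
  | succ n =>
    rw [ph, key _ (by positivity) h, key _ (by positivity) ?_, sub_zero]
    refine le_trans ?_ h
    have : (2 : ℝ) ^ n * r ≤ 2 ^ (n + 1) * r :=
      mul_le_mul_of_nonneg_right (pow_le_pow_right₀ (by norm_num) (Nat.le_succ n)) hr.le
    linarith

theorem ph_in {r : ℝ} (hr : 0 < r) (n : ℕ) {u : ℝ} (h : |u| ≤ 2 ^ n * r) :
    ph r (n + 1) u = 0 := by
  have h1 : th (u / (2 ^ n * r)) = 1 := by
    refine th_one ?_
    have h0 : (0 : ℝ) < 2 ^ n * r := by positivity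
    rw [abs_div, abs_of_pos h0, div_le_one h0]; exact h
  have h2 : th (u / (2 ^ (n + 1) * r)) = 1 := by
    refine th_one ?_
    have h0 : (0 : ℝ) < 2 ^ (n + 1) * r := by positivity
    rw [abs_div, abs_of_pos h0, div_le_one h0]
    refine h.trans (mul_le_mul_of_nonneg_right (pow_le_pow_right₀ (by norm_num) (Nat.le_succ n))
      hr.le)
  rw [ph, h1, h2, sub_self]

theorem ph_lip {r : ℝ} (hr : 0 < r) (n : ℕ) (u u' : ℝ) :
    |ph r n u - ph r n u'| ≤ 3 * (|u - u'| / (2 ^ n * r)) := by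
  have key : ∀ ρ : ℝ, 0 < ρ → |th (u / ρ) - th (u' / ρ)| ≤ |u - u'| / ρ := by
    intro ρ hρ
    refine (th_lip _ _).trans ?_
    rw [← sub_div, abs_div, abs_of_pos hρ]
  cases n with
  | zero =>
    rw [ph, ph, pow_zero, one_mul]
    have := key r hr
    have h0 : 0 ≤ |u - u'| / r := by positivity
    linarith
  | succ n =>
    rw [ph, ph]
    have h1 := key (2 ^ (n + 1) * r) (by positivity)
    have h2 := key (2 ^ n * r) (by positivity)
    have e : |u - u'| / (2 ^ n * r) = 2 * (|u - u'| / (2 ^ (n + 1) * r)) := by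
      rw [pow_succ]; field_simp
    rw [e] at h2
    have e2 : th (u / (2 ^ (n + 1) * r)) - th (u / (2 ^ n * r)) -
        (th (u' / (2 ^ (n + 1) * r)) - th (u' / (2 ^ n * r))) =
        (th (u / (2 ^ (n + 1) * r)) - th (u' / (2 ^ (n + 1) * r))) -
        (th (u / (2 ^ n * r)) - th (u' / (2 ^ n * r))) := by ring
    rw [e2]
    refine (abs_sub _ _).trans ?_
    linarith

end Vale.Agent.P092.H874
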