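import Vale.Agent.P092.H874.KLa
import Vale.Agent.P092.H464.Coef

/-!
P092, TEAM N, block [N-K-LIN] (helper874), part b: the dyadic pieces are admissible.
-/

namespace Vale.Agent.P092.H874

set_option linter.unusedSectionVars false

open Matrix
open Vale.Agent.P092.H464 (Adm Ch uq pp hh)

variable {E : Type*} [NormedAddCommGroup E] [NormedSpace ℝ E]
variable {C r : ℝ} {T : (Fin 3 → ℝ) →ₗ[ℝ] E} {G : E → ℂ} {η : Fin 3 → ℝ} {β : E}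

/-- normalised vectors of the chart -/
structure Zc (z : Fin 3 → ℝ) : Prop where
  one : z 1 = 1
  two : |z 2| ≤ 1

theorem dot3 (η z : Fin 3 → ℝ) : η ⬝ᵥ z = η 0 * z 0 + η 1 * z 1 + η 2 * z 2 := by
  rw [dotProduct, Fin.sum_univ_three]

theorem norm3 {z : Fin 3 → ℝ} {c : ℝ} (h0 : |z 0| ≤ c) (h1 : |z 1| ≤ c) (h2 : |z 2| ≤ c) :
    ‖z‖ ≤ c := by
  refine (pi_norm_le_iff_of_nonneg ((abs_nonneg _).trans h0)).2 fun i => ?_
  rw [Real.norm_eq_abs]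
  fin_cases i
  · exact h0
  · exact h1
  · exact h2

theorem Zc.norm_ge {z : Fin 3 → ℝ} (hz : Zc z) : 1 ≤ ‖z‖ := by
  have := norm_le_pi_norm z 1
  rwa [hz.one, norm_one] at this

theorem Zc.norm_le (h : Dat C r T G η β) {z : Fin 3 → ℝ} (hz : Zc z) :
    ‖z‖ ≤ |η ⬝ᵥ z| + 2 := by
  have e := dot3 η z
  rw [h.piv, hz.one, one_mul, mul_one] at e
  have e0 : z 0 = η ⬝ᵥ z - η 1 - η 2 * z 2 := by rw [e]; ring
  have h1 := h.le 1
  have h2 : |η 2 * z 2| ≤ 1 := by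
    rw [abs_mul]; exact mul_le_one₀ (h.le 2) (abs_nonneg _) hz.two
  have hn := abs_nonneg (η ⬝ᵥ z)
  refine norm3 ?_ ?_ ?_
  · rw [e0]
    calc |η ⬝ᵥ z - η 1 - η 2 * z 2| ≤ |η ⬝ᵥ z - η 1| + |η 2 * z 2| := abs_sub _ _
      _ ≤ |η ⬝ᵥ z| + |η 1| + |η 2 * z 2| := by gcongr; exact abs_sub _ _
      _ ≤ _ := by linarith
  · rw [hz.one, abs_one]; linarith
  · linarith [hz.two]

theorem Zc.norm_sub_le (h : Dat C r T G η β) {z z' : Fin 3 → ℝ} (hz : Zc z) (hz' : Zc z') :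
    ‖z - z'‖ ≤ |η ⬝ᵥ z - η ⬝ᵥ z'| + |z 2 - z' 2| := by
  have e := dot3 η z
  have e' := dot3 η z'
  rw [h.piv, hz.one, one_mul, mul_one] at e
  rw [h.piv, hz'.one, one_mul, mul_one] at e'
  have e0 : z 0 - z' 0 = (η ⬝ᵥ z - η ⬝ᵥ z') - η 2 * (z 2 - z' 2) := by rw [e, e']; ring
  have hn := abs_nonneg (η ⬝ᵥ z - η ⬝ᵥ z')
  have hn2 := abs_nonneg (z 2 - z' 2)
  refine norm3 ?_ ?_ ?_
  · rw [Pi.sub_apply, e0]
    refine (abs_sub _ _).trans ?_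
    rw [abs_mul]
    have := mul_le_mul_of_nonneg_right (h.le 2) hn2
    linarith
  · rw [Pi.sub_apply, hz.one, hz'.one, sub_self, abs_zero]; linarith
  · rw [Pi.sub_apply]; linarith

/-- bound in an annulus -/
theorem Dat.ann_le (h : Dat C r T G η β) {ρ : ℝ} (hρ : 0 < ρ) (hρ1 : ρ ≤ 1) {z : Fin 3 → ℝ}
    (hz : Zc z) (h1 : ρ / 2 ≤ |η ⬝ᵥ z|) (h2 : |η ⬝ᵥ z| ≤ 2 * ρ) :
    ‖G (T z) - G β‖ ≤ 8 * C ^ 3 * (r / ρ) := by
  have hC : 0 ≤ C := by linarith [h.one]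
  have hr := h.r0
  have h3 : ‖z‖ ≤ 4 := (hz.norm_le h).trans (by linarith)
  have h4 := h.far z
  have h5 : ‖G (T z) - G β‖ * (ρ / 2) ≤ C ^ 3 * (r * 4) :=
    calc ‖G (T z) - G β‖ * (ρ / 2) ≤ ‖G (T z) - G β‖ * |η ⬝ᵥ z| :=
          mul_le_mul_of_nonneg_left h1 (norm_nonneg _)
      _ ≤ C ^ 3 * (r * ‖z‖) := h4
      _ ≤ C ^ 3 * (r * 4) := by gcongr
  have e : 8 * C ^ 3 * (r / ρ) = (C ^ 3 * (r * 4)) / (ρ / 2) := by field_simp; ring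
  rw [e, le_div_iff₀ (by positivity)]
  exact h5

theorem Dat.ann_lip (h : Dat C r T G η β) {ρ : ℝ} (hρ : 0 < ρ) (hρ1 : ρ ≤ 1) {z z' : Fin 3 → ℝ}
    (hz : Zc z) (hz' : Zc z') (h1 : ρ / 2 ≤ |η ⬝ᵥ z|) (h1' : ρ / 2 ≤ |η ⬝ᵥ z'|)
    (h2' : |η ⬝ᵥ z'| ≤ 2 * ρ) :
    ‖G (T z) - G (T z')‖ ≤
      C ^ 3 * (r / ρ) * (18 * (|η ⬝ᵥ z - η ⬝ᵥ z'| / ρ) + 2 * |z 2 - z' 2|) := by
  have hC : 0 ≤ C := by linarith [h.one]
  have hr := h.r0
  have h3 : ‖z'‖ ≤ 4 := (hz'.norm_le h).trans (by linarith)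
  have hu : η ⬝ᵥ z ≠ 0 := fun e => by rw [e, abs_zero] at h1; linarith
  have hu' : η ⬝ᵥ z' ≠ 0 := fun e => by rw [e, abs_zero] at h1'; linarith
  have h4 := h.ann hu hu'
  set u := η ⬝ᵥ z with hudef
  set u' := η ⬝ᵥ z' with hudef'
  set a := |u - u'| with ha
  set b := |z 2 - z' 2| with hb
  have ha0 : 0 ≤ a := abs_nonneg _
  have hb0 : 0 ≤ b := abs_nonneg _
  have hzz : ‖z - z'‖ ≤ a + b := hz.norm_sub_le h hz'
  have hup : 0 < |u| := abs_pos.2 hu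
  have hup' : 0 < |u'| := abs_pos.2 hu'
  -- `‖ΔG‖ |u| |u'| ≤ C³ r ((a + b) |u'| + 4 a)`
  have h5 : ‖G (T z) - G (T z')‖ * (|u| * |u'|) ≤ C ^ 3 * (r * ((a + b) * |u'| + a * 4)) := by
    refine h4.trans ?_
    gcongr
  have h6 : ‖G (T z) - G (T z')‖ ≤ C ^ 3 * r * ((a + b) / |u| + a * 4 / (|u| * |u'|)) := by
    have e : C ^ 3 * r * ((a + b) / |u| + a * 4 / (|u| * |u'|)) =
        (C ^ 3 * (r * ((a + b) * |u'| + a * 4))) / (|u| * |u'|) := by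
      field_simp
    rw [e, le_div_iff₀ (by positivity)]
    exact h5
  refine h6.trans ?_
  have h7 : (a + b) / |u| ≤ (a + b) / (ρ / 2) :=
    div_le_div_of_nonneg_left (by positivity) (by positivity) h1
  have h8 : a * 4 / (|u| * |u'|) ≤ a * 4 / (ρ / 2 * (ρ / 2)) :=
    div_le_div_of_nonneg_left (by positivity) (by positivity)
      (mul_le_mul h1 h1' (by positivity) hup.le)
  have h9 : a ≤ a / ρ := by
    rw [le_div_iff₀ hρ]; nlinarith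
  calc C ^ 3 * r * ((a + b) / |u| + a * 4 / (|u| * |u'|))
      ≤ C ^ 3 * r * ((a + b) / (ρ / 2) + a * 4 / (ρ / 2 * (ρ / 2))) := by gcongr
    _ = C ^ 3 * (r / ρ) * (2 * (a + b) + 16 * (a / ρ)) := by field_simp; ring
    _ ≤ C ^ 3 * (r / ρ) * (18 * (a / ρ) + 2 * b) := by
        refine mul_le_mul_of_nonneg_left ?_ (by positivity)
        linarith

theorem Dat.zero_lip (h : Dat C r T G η β) {z z' : Fin 3 → ℝ} (hz : Zc z) (hz' : Zc z') :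
    ‖G (T z) - G (T z')‖ ≤ C ^ 3 * (2 * (|η ⬝ᵥ z - η ⬝ᵥ z'| / r) + |z 2 - z' 2|) := by
  have hC : 0 ≤ C := by linarith [h.one]
  have hr := h.r0
  have h1 := h.near (z := z) (z' := z') hz.norm_ge
  have h2 := hz.norm_sub_le h hz'
  have ha0 := abs_nonneg (η ⬝ᵥ z - η ⬝ᵥ z')
  have e : C ^ 3 * (2 * (|η ⬝ᵥ z - η ⬝ᵥ z'| / r) + |z 2 - z' 2|) =
      (C ^ 3 * (2 * |η ⬝ᵥ z - η ⬝ᵥ z'| + r * |z 2 - z' 2|)) / r := by field_simp
  rw [e, le_div_iff₀ hr]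
  refine h1.trans (mul_le_mul_of_nonneg_left ?_ (by positivity))
  have h3 : r * ‖z - z'‖ ≤ r * (|η ⬝ᵥ z - η ⬝ᵥ z'| + |z 2 - z' 2|) :=
    mul_le_mul_of_nonneg_left h2 hr.le
  have h4 : r * |η ⬝ᵥ z - η ⬝ᵥ z'| ≤ 1 * |η ⬝ᵥ z - η ⬝ᵥ z'| :=
    mul_le_mul_of_nonneg_right h.r1 ha0
  linarith

/-- the piece -/
noncomputable def pz (r : ℝ) (T : (Fin 3 → ℝ) →ₗ[ℝ] E) (G : E → ℂ) (η : Fin 3 → ℝ) (β : E) (n : ℕ)
    (z : Fin 3 → ℝ) : ℂ := (ph r n (η ⬝ᵥ z) : ℂ) * (G (T z) - G β)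

theorem Dat.pz_norm (h : Dat C r T G η β) (n : ℕ) (hn : 2 ^ n * r ≤ 1) {z : Fin 3 → ℝ}
    (hz : Zc z) : ‖pz r T G η β n z‖ ≤ 16 * C ^ 3 / 2 ^ n := by
  have hC1 : 1 ≤ C ^ 3 := one_le_pow₀ h.one
  have hr := h.r0
  rw [pz, norm_mul, Complex.norm_real, Real.norm_eq_abs]
  cases n with
  | zero =>
    rw [pow_zero, div_one]
    calc |ph r 0 (η ⬝ᵥ z)| * ‖G (T z) - G β‖ ≤ 1 * 2 :=
          mul_le_mul (ph_abs _ _ _) (h.two _) (norm_nonneg _) zero_le_one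
      _ ≤ _ := by linarith
  | succ n =>
    have hpos : (0 : ℝ) ≤ 16 * C ^ 3 / 2 ^ (n + 1) := by positivity
    by_cases h1 : |η ⬝ᵥ z| ≤ 2 ^ n * r
    · rw [ph_in hr n h1, abs_zero, zero_mul]; exact hpos
    · by_cases h2 : 2 * (2 ^ (n + 1) * r) ≤ |η ⬝ᵥ z|
      · rw [ph_out hr (n + 1) h2, abs_zero, zero_mul]; exact hpos
      · push Not at h1 h2
        have h3 := h.ann_le (ρ := 2 ^ (n + 1) * r) (by positivity) hn hz
          (by rw [pow_succ]; linarith) h2.le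
        have e : r / (2 ^ (n + 1) * r) = 1 / 2 ^ (n + 1) := by field_simp
        rw [e] at h3
        calc |ph r (n + 1) (η ⬝ᵥ z)| * ‖G (T z) - G β‖
            ≤ 1 * (8 * C ^ 3 * (1 / 2 ^ (n + 1))) :=
              mul_le_mul (ph_abs _ _ _) h3 (norm_nonneg _) zero_le_one
          _ = 8 * C ^ 3 / 2 ^ (n + 1) := by ring
          _ ≤ _ := by gcongr; norm_num

theorem Dat.pz_lip (h : Dat C r T G η β) (n : ℕ) (hn : 2 ^ n * r ≤ 1) {z z' : Fin 3 → ℝ}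
    (hz : Zc z) (hz' : Zc z') : ‖pz r T G η β n z - pz r T G η β n z'‖ ≤
      42 * C ^ 3 / 2 ^ n * (|η ⬝ᵥ z - η ⬝ᵥ z'| / (2 ^ n * r) + |z 2 - z' 2|) := by
  have hC1 : 1 ≤ C ^ 3 := one_le_pow₀ h.one
  have hr := h.r0
  have ha0 := abs_nonneg (η ⬝ᵥ z - η ⬝ᵥ z')
  have hb0 := abs_nonneg (z 2 - z' 2)
  have key : ∀ w w' : Fin 3 → ℝ, ‖pz r T G η β n w - pz r T G η β n w'‖ ≤
      |ph r n (η ⬝ᵥ w) - ph r n (η ⬝ᵥ w')| * ‖G (T w) - G β‖ +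
        |ph r n (η ⬝ᵥ w')| * ‖G (T w) - G (T w')‖ := by
    intro w w'
    have e : pz r T G η β n w - pz r T G η β n w' =
        ((ph r n (η ⬝ᵥ w) - ph r n (η ⬝ᵥ w') : ℝ) : ℂ) * (G (T w) - G β) +
        (ph r n (η ⬝ᵥ w') : ℂ) * (G (T w) - G (T w')) := by
      rw [pz, pz]; push_cast; ring
    rw [e]
    refine (norm_add_le _ _).trans ?_
    rw [norm_mul, norm_mul, Complex.norm_real, Complex.norm_real, Real.norm_eq_abs,
      Real.norm_eq_abs]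
  cases n with
  | zero =>
    refine (key z z').trans ?_
    have h1 := ph_lip hr 0 (η ⬝ᵥ z) (η ⬝ᵥ z')
    rw [pow_zero, one_mul] at h1 ⊢
    have h2 := h.zero_lip hz hz'
    have h0 : 0 ≤ |η ⬝ᵥ z - η ⬝ᵥ z'| / r := by positivity
    calc _ ≤ 3 * (|η ⬝ᵥ z - η ⬝ᵥ z'| / r) * 2 +
          1 * (C ^ 3 * (2 * (|η ⬝ᵥ z - η ⬝ᵥ z'| / r) + |z 2 - z' 2|)) :=
          add_le_add (mul_le_mul h1 (h.two _) (norm_nonneg _) (by positivity))
            (mul_le_mul (ph_abs _ _ _) h2 (norm_nonneg _) zero_le_one)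
      _ ≤ 42 * C ^ 3 / 1 * (|η ⬝ᵥ z - η ⬝ᵥ z'| / r + |z 2 - z' 2|) := by
          have h3 : |η ⬝ᵥ z - η ⬝ᵥ z'| / r ≤ C ^ 3 * (|η ⬝ᵥ z - η ⬝ᵥ z'| / r) :=
            le_mul_of_one_le_left h0 hC1
          have h4 : 0 ≤ C ^ 3 * |z 2 - z' 2| := by positivity
          have h5 : 0 ≤ C ^ 3 * (|η ⬝ᵥ z - η ⬝ᵥ z'| / r) := by positivity
          rw [div_one]
          nlinarith
  | succ n =>
    set ρ : ℝ := 2 ^ (n + 1) * r with hρdef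
    have hρ : 0 < ρ := by positivity
    have hhalf : 2 ^ n * r = ρ / 2 := by rw [hρdef, pow_succ]; ring
    have erho : r / ρ = 1 / 2 ^ (n + 1) := by rw [hρdef]; field_simp
    set a := |η ⬝ᵥ z - η ⬝ᵥ z'| with ha
    set b := |z 2 - z' 2| with hb
    have hRHS : 0 ≤ 42 * C ^ 3 / 2 ^ (n + 1) * (a / ρ + b) := by positivity
    -- one point inside
    have one : ∀ {w w' : Fin 3 → ℝ}, Zc w → |η ⬝ᵥ w - η ⬝ᵥ w'| = a →
        ρ / 2 ≤ |η ⬝ᵥ w| → |η ⬝ᵥ w| ≤ 2 * ρ →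
        |ph r (n + 1) (η ⬝ᵥ w) - ph r (n + 1) (η ⬝ᵥ w')| * ‖G (T w) - G β‖ ≤
          24 * C ^ 3 / 2 ^ (n + 1) * (a / ρ) := by
      intro w w' hw hwa h1 h2
      have h3 := ph_lip hr (n + 1) (η ⬝ᵥ w) (η ⬝ᵥ w')
      rw [hwa, ← hρdef] at h3
      have h4 := h.ann_le hρ hn hw h1 h2
      rw [erho] at h4
      calc _ ≤ 3 * (a / ρ) * (8 * C ^ 3 * (1 / 2 ^ (n + 1))) :=
            mul_le_mul h3 h4 (norm_nonneg _) (by positivity)
        _ = _ := by ring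
    have hle : 24 * C ^ 3 / 2 ^ (n + 1) * (a / ρ) ≤ 42 * C ^ 3 / 2 ^ (n + 1) * (a / ρ + b) := by
      have h0 : 0 ≤ a / ρ := by positivity
      refine mul_le_mul ?_ (by linarith) h0 (by positivity)
      gcongr
      norm_num
    have out : ∀ {w : Fin 3 → ℝ}, ¬ (ρ / 2 ≤ |η ⬝ᵥ w| ∧ |η ⬝ᵥ w| ≤ 2 * ρ) →
        ph r (n + 1) (η ⬝ᵥ w) = 0 := by
      intro w hw
      by_cases h1 : |η ⬝ᵥ w| ≤ 2 ^ n * r
      · exact ph_in hr n h1
      · rw [hhalf] at h1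
        push Not at h1
        refine ph_out hr (n + 1) ?_
        by_contra h2
        push Not at h2
        exact hw ⟨h1.le, h2.le⟩
    by_cases hi : ρ / 2 ≤ |η ⬝ᵥ z| ∧ |η ⬝ᵥ z| ≤ 2 * ρ
    · by_cases hi' : ρ / 2 ≤ |η ⬝ᵥ z'| ∧ |η ⬝ᵥ z'| ≤ 2 * ρ
      · refine (key z z').trans ?_
        have h1 := one (w' := z') hz rfl hi.1 hi.2
        have h2 := h.ann_lip hρ hn hz hz' hi.1 hi'.1 hi'.2
        rw [erho] at h2
        have h3 : |ph r (n + 1) (η ⬝ᵥ z')| * ‖G (T z) - G (T z')‖ ≤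
            C ^ 3 * (1 / 2 ^ (n + 1)) * (18 * (a / ρ) + 2 * b) := by
          calc _ ≤ 1 * (C ^ 3 * (1 / 2 ^ (n + 1)) * (18 * (a / ρ) + 2 * b)) :=
                mul_le_mul (ph_abs _ _ _) h2 (norm_nonneg _) zero_le_one
            _ = _ := one_mul _
        refine (add_le_add h1 h3).trans ?_
        have e : 24 * C ^ 3 / 2 ^ (n + 1) * (a / ρ) +
            C ^ 3 * (1 / 2 ^ (n + 1)) * (18 * (a / ρ) + 2 * b) =
            C ^ 3 / 2 ^ (n + 1) * (42 * (a / ρ) + 2 * b) := by ring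
        have e2 : 42 * C ^ 3 / 2 ^ (n + 1) * (a / ρ + b) =
            C ^ 3 / 2 ^ (n + 1) * (42 * (a / ρ) + 42 * b) := by ring
        rw [e, e2]
        gcongr
        norm_num
      · refine (key z z').trans ?_
        rw [out hi', abs_zero, zero_mul, add_zero]
        have h1 := one (w' := z') hz rfl hi.1 hi.2
        rw [out hi'] at h1
        exact h1.trans hle
    · by_cases hi' : ρ / 2 ≤ |η ⬝ᵥ z'| ∧ |η ⬝ᵥ z'| ≤ 2 * ρ
      · rw [norm_sub_rev]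
        refine (key z' z).trans ?_
        rw [out hi, abs_zero, zero_mul, add_zero]
        have h1 := one (w := z') (w' := z) hz' (abs_sub_comm _ _) hi'.1 hi'.2
        rw [out hi] at h1
        exact h1.trans hle
      · rw [pz, pz, out hi, out hi']
        simp only [Complex.ofReal_zero, zero_mul, sub_self, norm_zero]
        exact hRHS

/-! ### in the letters of H464 -/

variable {X : Type*} {s : X → Fin 3 → ℝ}

/-- normalised representative -/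
noncomputable def zn (s : X → Fin 3 → ℝ) (x : X) : Fin 3 → ℝ := (s x 1)⁻¹ • s x

theorem zn_zc {x : X} (hx : x ∈ Ch s) : Zc (zn s x) := by
  have h1 : s x 1 ≠ 0 := hx.1
  have h2 : |s x 2 / s x 1| ≤ 1 := hx.2
  refine ⟨?_, ?_⟩
  · rw [zn, Pi.smul_apply, smul_eq_mul, inv_mul_cancel₀ h1]
  · rw [zn, Pi.smul_apply, smul_eq_mul, inv_mul_eq_div]; exact h2

theorem zn_two (x : X) : zn s x 2 = pp s x := by
  rw [zn, Pi.smul_apply, smul_eq_mul, inv_mul_eq_div]; rfl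

theorem zn_uq (h : Dat C r T G η β) {x : X} (hx : x ∈ Ch s) :
    uq s (-(η 1), -(η 2)) x = η ⬝ᵥ zn s x := by
  have h1 : s x 1 ≠ 0 := hx.1
  rw [dot3, h.piv, zn, Pi.smul_apply, Pi.smul_apply, Pi.smul_apply, smul_eq_mul, smul_eq_mul,
    smul_eq_mul]
  change s x 0 / s x 1 - -(η 1) - -(η 2) * (s x 2 / s x 1) = _
  field_simp
  ring

theorem zn_G (h : Dat C r T G η β) {x : X} (hx : x ∈ Ch s) : G (T (s x)) = G (T (zn s x)) := by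
  have h1 : s x 1 ≠ 0 := hx.1
  rw [zn, map_smul, h.g3 _ _ (inv_ne_zero h1)]

/-- the piece as a function on `X` -/
noncomputable def px (s : X → Fin 3 → ℝ) (C r : ℝ) (T : (Fin 3 → ℝ) →ₗ[ℝ] E) (G : E → ℂ)
    (η : Fin 3 → ℝ) (β : E) (n : ℕ) (x : X) : ℂ :=
  ((2 ^ n / (64 * C ^ 3) : ℝ) : ℂ) * pz r T G η β n (zn s x)

theorem Dat.adm (h : Dat C r T G η β) (n : ℕ) (hn : 2 ^ n * r ≤ 1) {C₁ : ℝ} (hC₁ : 2 ≤ C₁) :
    Adm s (2 ^ n * r) C₁ (-(η 1), -(η 2)) (px s C r T G η β n) := by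
  have hC1 : 1 ≤ C ^ 3 := one_le_pow₀ h.one
  have hr := h.r0
  have hC0 : C ≠ 0 := by have := h.one; positivity
  have hc : (0 : ℝ) ≤ 2 ^ n / (64 * C ^ 3) := by positivity
  have hnorm : ‖((2 ^ n / (64 * C ^ 3) : ℝ) : ℂ)‖ = 2 ^ n / (64 * C ^ 3) := by
    rw [Complex.norm_real, Real.norm_eq_abs, abs_of_nonneg hc]
  refine ⟨fun x hx => ?_, fun x hx hlt => ?_, fun x hx x' hx' => ?_⟩
  · rw [px, norm_mul, hnorm]
    have h1 := h.pz_norm n hn (zn_zc hx)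
    calc 2 ^ n / (64 * C ^ 3) * _ ≤ 2 ^ n / (64 * C ^ 3) * (16 * C ^ 3 / 2 ^ n) :=
          mul_le_mul_of_nonneg_left h1 hc
      _ = 16 / 64 := by field_simp
      _ ≤ 1 := by norm_num
  · rw [zn_uq h hx] at hlt
    rw [px, pz, ph_out hr n]
    · simp
    · have : 2 * (2 ^ n * r) ≤ C₁ * (2 ^ n * r) :=
        mul_le_mul_of_nonneg_right hC₁ (by positivity)
      linarith
  · rw [px, px, ← mul_sub, norm_mul, hnorm, zn_uq h hx, zn_uq h hx', ← zn_two, ← zn_two]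
    have h1 := h.pz_lip n hn (zn_zc hx) (zn_zc hx')
    set q := |η ⬝ᵥ zn s x - η ⬝ᵥ zn s x'| / (2 ^ n * r) + |zn s x 2 - zn s x' 2| with hq
    have hq0 : 0 ≤ q := by positivity
    calc 2 ^ n / (64 * C ^ 3) * _ ≤ 2 ^ n / (64 * C ^ 3) * (42 * C ^ 3 / 2 ^ n * q) :=
          mul_le_mul_of_nonneg_left h1 hc
      _ = 42 / 64 * q := by field_simp
      _ ≤ C₁ * q := by
          refine mul_le_mul_of_nonneg_right ?_ hq0
          linarith [show (42 : ℝ) / 64 ≤ 1 by norm_num]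

end Vale.Agent.P092.H874
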