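import Vale.Agent.P092.H874.KLb
import Vale.Agent.P092.H874.Fn
import Vale.Agent.P092.H464.KakChart

/-!
P092, TEAM N, block [N-K-LIN] (helper874), part c: the estimate in one chart, for a function `G ∘ T`
with arbitrary `G`: constant, dyadic strips (`H464.kak_chart`), far part.
-/

namespace Vale.Agent.P092.H874

set_option linter.unusedSectionVars false

open Matrix MeasureTheory Finset
open Vale.Agent.P092.H464 (Pv CI Adm Ch uq pp hh Fun disc meas_disc meas_Ch Inc kakC kakC_nonneg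
  kak_chart)
open Vale.Agent.P092.H175.Kb (card_square et1 et2)

variable {K : Type*} [NormedAddCommGroup K] [InnerProductSpace ℂ K] [CompleteSpace K]
variable {E : Type*} [NormedAddCommGroup E] [NormedSpace ℝ E]
variable {X Y : Type*} [MeasurableSpace X] [MeasurableSpace Y]

/-- restriction to a measurable set -/
theorem Fn.restrict {P : Set X → (K →L[ℂ] K)} (hP : Pv P) {F : X → ℂ} {W : K →L[ℂ] K}
    (h : Fn P F W) {D : Set X} (hD : MeasurableSet D) : Fn P (D.indicator F) (W * P D) := by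
  classical
  have hcomm : ∀ A, MeasurableSet A → W * P D * P A = P A * (W * P D) := by
    intro A hA
    rw [mul_assoc, hP.comm hD hA, ← mul_assoc, h.comm A hA, mul_assoc]
  refine ⟨hcomm, fun A hA c ε hε hs => ?_⟩
  let B : Bool → Set X := fun b => if b then A ∩ D else A \ D
  have hB : ∀ b, MeasurableSet (B b) := by
    intro b
    cases b
    · exact hA.diff hD
    · exact hA.inter hD
  have hU : (⋃ b ∈ (Finset.univ : Finset Bool), B b) = A := by
    ext x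
    simp only [Set.mem_iUnion, Finset.mem_univ, exists_true_left]
    constructor
    · rintro ⟨b, hb⟩
      cases b
      · exact hb.1
      · exact hb.1
    · intro hx
      by_cases hxD : x ∈ D
      · exact ⟨true, hx, hxD⟩
      · exact ⟨false, hx, hxD⟩
  have key := block hP (Finset.univ : Finset Bool) B (fun b _ => hB b) (fun b _ b' _ hbb => ?_)
    (T := W * P D - c • 1) (fun b _ => ?_) hε (fun b _ => ?_)
  · rwa [hU] at key
  · cases b <;> cases b'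
    · exact absurd rfl hbb
    · exact Set.disjoint_left.2 fun x hx hx' => hx.2 hx'.2
    · exact Set.disjoint_left.2 fun x hx hx' => hx'.2 hx.2
    · exact absurd rfl hbb
  · rw [sub_mul, mul_sub, hcomm _ (hB b), smul_one_mul, mul_smul_one]
  · cases b
    · have e : P D * P (A \ D) = 0 := hP.disj hD (hA.diff hD)
        (Set.disjoint_left.2 fun x hx hx' => hx'.2 hx)
      change ‖(W * P D - c • 1) * P (A \ D)‖ ≤ ε
      rw [sub_mul, mul_assoc, e, mul_zero, zero_sub, norm_neg, smul_one_mul, norm_smul]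
      rcases Set.eq_empty_or_nonempty (A \ D) with h0 | ⟨x, hx⟩
      · rw [h0, hP.empty, norm_zero, mul_zero]; exact hε
      · have h1 := hs x hx.1
        rw [Set.indicator_of_notMem hx.2, zero_sub, norm_neg] at h1
        calc ‖c‖ * ‖P (A \ D)‖ ≤ ε * 1 :=
              mul_le_mul h1 (hP.opNorm_le (hA.diff hD)) (norm_nonneg _) hε
          _ = ε := mul_one _
    · change ‖(W * P D - c • 1) * P (A ∩ D)‖ ≤ ε
      have e : (W * P D - c • 1) * P (A ∩ D) = (W - c • 1) * P (A ∩ D) := by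
        rw [sub_mul, sub_mul, mul_assoc, hP.mul_of_subset' (hA.inter hD) hD Set.inter_subset_right]
      rw [e]
      refine h.approx _ (hA.inter hD) c ε hε fun x hx => ?_
      have := hs x hx.1
      rwa [Set.indicator_of_mem hx.2] at this

theorem Fn.congr {P : Set X → (K →L[ℂ] K)} {F F' : X → ℂ} {W : K →L[ℂ] K}
    (h : Fn P F W) (e : F = F') : Fn P F' W := e ▸ h

/-- the constant of the chart estimate -/
noncomputable def lcC (C CB : ℝ) : ℝ :=
  3 * ((2 * ⌈CB⌉₊ + 1) ^ 2 + 4 * (36864 * C ^ 6 * kakC (2 + CB)) + 625 * C ^ 6)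

theorem lcC_nonneg {C CB : ℝ} (hCB : 0 ≤ CB) : 0 ≤ lcC C CB := by
  have h1 : 0 ≤ kakC (2 + CB) := kakC_nonneg (by linarith)
  have h2 : (0 : ℝ) ≤ C ^ 6 := by positivity
  unfold lcC
  positivity

theorem sq3 (a b c : ℝ) : (a + b + c) ^ 2 ≤ 3 * (a ^ 2 + b ^ 2 + c ^ 2) := by
  nlinarith [sq_nonneg (a - b), sq_nonneg (b - c), sq_nonneg (a - c)]

/-- **the estimate in one chart** -/
theorem chart_est {s : X → Fin 3 → ℝ} {t : Y → Fin 3 → ℝ} {Pb Pc : Set X → (K →L[ℂ] K)}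
    {Ll Lm : Set Y → (K →L[ℂ] K)} (hs : Measurable s) (ht : Measurable t) (hs0 : ∀ x, s x ≠ 0)
    (ht0 : ∀ ν, t ν ≠ 0) (hb : Pv Pb) (hc : Pv Pc) (hl : Pv Ll) (hm : Pv Lm)
    (hbl : CI (Inc s t) Pb Ll) (hcl : CI (Inc s t) Pc Ll) (hcm : CI (Inc s t) Pc Lm)
    {κ : Type*} (S : Finset κ) (T : κ → (Fin 3 → ℝ) →ₗ[ℝ] E) (G : κ → E → ℂ)
    (η : κ → Fin 3 → ℝ) (β : κ → E) (W : κ → (K →L[ℂ] K)) {C r : ℝ} (hr : 0 < r) (hr1 : r ≤ 1)
    {N : ℕ} (hD : ∀ k ∈ S, Dat C r (T k) (G k) (η k) (β k))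
    (hcnt : ∀ n : ℝ × ℝ, #{k ∈ S | |-(η k 1) - n.1| ≤ r ∧ |-(η k 2) - n.2| ≤ r} ≤ N)
    (hG : ∀ k ∈ S, Measurable fun x => G k (T k (s x)))
    (hW : ∀ k ∈ S, Fn Pb (fun x => G k (T k (s x))) (W k))
    (B : κ → Set Y) (hB : ∀ k ∈ S, MeasurableSet (B k)) {CB : ℝ} (hCB : 0 ≤ CB)
    (hBd : ∀ k ∈ S, B k ⊆ disc t (-(η k 1), -(η k 2)) (CB * r)) (ξ : K) :
    ∑ k ∈ S, ‖Lm (B k) (W k (Pb (Ch s) ξ))‖ ^ 2 ≤
      lcC C CB * N * (1 + Real.log (1 / r)) ^ 6 * ‖ξ‖ ^ 2 := by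
  classical
  rcases S.eq_empty_or_nonempty with hS0 | ⟨k0, hk0⟩
  · rw [hS0, Finset.sum_empty]
    have h1 : 0 ≤ lcC C CB := lcC_nonneg hCB
    have hlog0 : 0 ≤ Real.log (1 / r) := Real.log_nonneg (by rw [le_div_iff₀ hr]; linarith)
    positivity
  have hC1 : 1 ≤ C := (hD k0 hk0).one
  have hC0 : C ≠ 0 := by positivity
  set ℓ : ℝ := 1 + Real.log (1 / r) with hℓ
  have hr' : 1 ≤ 1 / r := by rw [le_div_iff₀ hr]; linarith
  have hlog0 : 0 ≤ Real.log (1 / r) := Real.log_nonneg hr'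
  have hℓ1 : 1 ≤ ℓ := by linarith
  have hN0 : (0 : ℝ) ≤ N := Nat.cast_nonneg N
  have hξ0 : 0 ≤ ‖ξ‖ ^ 2 := sq_nonneg _
  have hCh : MeasurableSet (Ch s) := meas_Ch hs
  obtain ⟨L, hL1, hL2⟩ := exists_nat_pow_near hr' (by norm_num : (1 : ℝ) < 2)
  have hLr : 2 ^ L * r ≤ 1 := by rw [le_div_iff₀ hr] at hL1; exact hL1
  have hLr2 : 1 / 2 ≤ 2 ^ L * r := by
    rw [div_lt_iff₀ hr, pow_succ] at hL2; linarith
  have hnr : ∀ n ∈ range (L + 1), 2 ^ n * r ≤ 1 := by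
    intro n hn
    have h1 : n ≤ L := Nat.lt_succ_iff.1 (mem_range.1 hn)
    exact (mul_le_mul_of_nonneg_right (pow_le_pow_right₀ (by norm_num) h1) hr.le).trans hLr
  have hLl : ((L : ℝ) + 1) ≤ 2 * ℓ := by
    have h1 := Real.log_le_log (by positivity) hL1
    rw [Real.log_pow] at h1
    have h2 : (0 : ℝ) ≤ L := Nat.cast_nonneg L
    have h3 : (1 : ℝ) / 2 ≤ Real.log 2 := by
      have := Real.log_two_gt_d9; linarith
    nlinarith
  -- measurability of the normalised representative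
  have hzn : Measurable fun x => zn s x :=
    (((measurable_pi_apply 1).comp hs).inv).smul hs
  have hu : ∀ k, Measurable fun x => η k ⬝ᵥ zn s x := by
    intro k
    simp only [dotProduct]
    exact Finset.measurable_sum _ fun i _ =>
      ((measurable_pi_apply i).comp hzn).const_mul _
  -- the pieces
  let fn : κ → ℕ → X → ℂ := fun k n => (Ch s).indicator fun x =>
    (ph r n (η k ⬝ᵥ zn s x) : ℂ) * (G k (T k (s x)) - G k (β k))
  let fz : κ → X → ℂ := fun k => (Ch s).indicator fun x =>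
    ((1 - th ((η k ⬝ᵥ zn s x) / (2 ^ L * r)) : ℝ) : ℂ) * (G k (T k (s x)) - G k (β k))
  have hfnm : ∀ k ∈ S, ∀ n, Measurable (fn k n) := fun k hk n =>
    ((Complex.measurable_ofReal.comp ((ph_meas r n).comp (hu k))).mul
      ((hG k hk).sub_const _)).indicator hCh
  have hfzm : ∀ k ∈ S, Measurable (fz k) := fun k hk =>
    ((Complex.measurable_ofReal.comp
      (((th_meas.comp ((hu k).div_const _))).const_sub 1)).mul
      ((hG k hk).sub_const _)).indicator hCh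
  have hfnb : ∀ k ∈ S, ∀ n, ∀ x, ‖fn k n x‖ ≤ 2 := by
    intro k hk n x
    by_cases hx : x ∈ Ch s
    · simp only [fn, Set.indicator_of_mem hx]
      rw [norm_mul, Complex.norm_real, Real.norm_eq_abs]
      calc _ ≤ 1 * 2 := mul_le_mul (ph_abs _ _ _) ((hD k hk).two _) (norm_nonneg _) zero_le_one
        _ = 2 := one_mul 2
    · simp only [fn, Set.indicator_of_notMem hx, norm_zero]
      norm_num
  have hC3 : (0 : ℝ) ≤ 5 * C ^ 3 * r := by positivity
  have hfzb : ∀ k ∈ S, ∀ x, ‖fz k x‖ ≤ 5 * C ^ 3 * r := by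
    intro k hk x
    by_cases hx : x ∈ Ch s
    · simp only [fz, Set.indicator_of_mem hx]
      rw [norm_mul, Complex.norm_real, Real.norm_eq_abs, zn_G (hD k hk) hx]
      have hz := zn_zc (s := s) hx
      set u := η k ⬝ᵥ zn s x with hudef
      have h0 := th_nonneg (u / (2 ^ L * r))
      have h1 := th_le (u / (2 ^ L * r))
      have habs : |1 - th (u / (2 ^ L * r))| ≤ 1 := by rw [abs_le]; constructor <;> linarith
      by_cases hu1 : |u| ≤ 2 ^ L * r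
      · have : th (u / (2 ^ L * r)) = 1 := by
          refine th_one ?_
          have h2 : (0 : ℝ) < 2 ^ L * r := by positivity
          rw [abs_div, abs_of_pos h2, div_le_one h2]; exact hu1
        rw [this, sub_self, abs_zero, zero_mul]; exact hC3
      · push Not at hu1
        have hu2 : 1 / 2 < |u| := lt_of_le_of_lt hLr2 hu1
        have h2 := (hD k hk).far (zn s x)
        have h3 := hz.norm_le (hD k hk)
        have h4 : ‖zn s x‖ ≤ 5 * |u| := by linarith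
        have h5 : ‖G k (T k (zn s x)) - G k (β k)‖ ≤ 5 * C ^ 3 * r := by
          have h6 : ‖G k (T k (zn s x)) - G k (β k)‖ * |u| ≤ (5 * C ^ 3 * r) * |u| := by
            refine h2.trans ?_
            calc C ^ 3 * (r * ‖zn s x‖) ≤ C ^ 3 * (r * (5 * |u|)) := by gcongr
              _ = _ := by ring
          exact le_of_mul_le_mul_right h6 (by linarith)
        calc _ ≤ 1 * (5 * C ^ 3 * r) := mul_le_mul habs h5 (norm_nonneg _) zero_le_one
          _ = _ := one_mul _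
    · simp only [fz, Set.indicator_of_notMem hx, norm_zero]
      exact hC3
  -- the operators
  have hV : ∀ k ∈ S, ∀ n, ∃ V, Fn Pb (fn k n) V := fun k hk n =>
    exists_fn hb (hfnm k hk n) (hfnb k hk n)
  have hZ : ∀ k ∈ S, ∃ V, Fn Pb (fz k) V := fun k hk => exists_fn hb (hfzm k hk) (hfzb k hk)
  choose! V hV using hV
  choose! Z hZ using hZ
  have hdec : ∀ k ∈ S, W k * Pb (Ch s) =
      G k (β k) • Pb (Ch s) + ∑ n ∈ range (L + 1), V k n + Z k := by
    intro k hk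
    have hD' := hD k hk
    have h1 : Fn Pb ((Ch s).indicator fun x => G k (T k (s x))) (W k * Pb (Ch s)) :=
      (hW k hk).restrict hb hCh
    have h2 : Fn Pb ((Ch s).indicator fun _ => G k (β k)) (G k (β k) • Pb (Ch s)) := by
      have := (Fn.const (K := K) hb (G k (β k))).restrict hb hCh
      rwa [smul_one_mul] at this
    have h2m : Measurable ((Ch s).indicator fun _ : X => G k (β k)) :=
      measurable_const.indicator hCh
    have h2b : ∀ x, ‖(Ch s).indicator (fun _ : X => G k (β k)) x‖ ≤ 1 := by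
      intro x
      by_cases hx : x ∈ Ch s
      · rw [Set.indicator_of_mem hx]; exact hD'.g1 _
      · rw [Set.indicator_of_notMem hx, norm_zero]; exact zero_le_one
    have h3 : Fn Pb (fun x => ∑ n ∈ range (L + 1), fn k n x) (∑ n ∈ range (L + 1), V k n) :=
      Fn.sum hb _ _ _ (fun n _ => hfnm k hk n) (fun _ => 2) (fun n _ => hfnb k hk n)
        fun n _ => hV k hk n
    have h3m : Measurable fun x => ∑ n ∈ range (L + 1), fn k n x :=
      Finset.measurable_sum _ fun n _ => hfnm k hk n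
    have h3b : ∀ x, ‖∑ n ∈ range (L + 1), fn k n x‖ ≤ ∑ _n ∈ range (L + 1), (2 : ℝ) := fun x =>
      (norm_sum_le _ _).trans (Finset.sum_le_sum fun n _ => hfnb k hk n x)
    have h4 := Fn.add hb h3m h3b h3 (hZ k hk)
    have h5 := Fn.add hb h2m h2b h2 h4
    have hGm : Measurable ((Ch s).indicator fun x => G k (T k (s x))) := (hG k hk).indicator hCh
    have hGb : ∀ x, ‖(Ch s).indicator (fun x => G k (T k (s x))) x‖ ≤ 1 := by
      intro x
      by_cases hx : x ∈ Ch s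
      · rw [Set.indicator_of_mem hx]; exact hD'.g1 _
      · rw [Set.indicator_of_notMem hx, norm_zero]; exact zero_le_one
    have e : (fun x => (Ch s).indicator (fun _ : X => G k (β k)) x +
        (∑ n ∈ range (L + 1), fn k n x + fz k x)) =
        (Ch s).indicator fun x => G k (T k (s x)) := by
      funext x
      by_cases hx : x ∈ Ch s
      · simp only [fn, fz, Set.indicator_of_mem hx]
        rw [← Finset.sum_mul, ← Complex.ofReal_sum, ph_sum]
        push_cast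
        ring
      · simp only [fn, fz, Set.indicator_of_notMem hx]
        simp
    have h6 := Fn.unique hb hGm hGb h1 (h5.congr e)
    rw [h6]; abel
  -- the constant part
  have hmult : ∀ ζ : K, ∑ k ∈ S, ‖Lm (B k) ζ‖ ^ 2 ≤ (2 * ⌈CB⌉₊ + 1) ^ 2 * N * ‖ζ‖ ^ 2 := by
    intro ζ
    have h1 := hm.mult S B hB ((2 * ⌈CB⌉₊ + 1) ^ 2 * N) (fun ν T' hT' h => by
      refine le_trans (Finset.card_le_card ?_)
        (card_square (fun k => (-(η k 1), -(η k 2))) S hr hcnt ⌈CB⌉₊ (et1 (t ν), et2 (t ν)))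
      intro k hk
      have h1 := hBd k (hT' hk) (h k hk)
      have h2 : CB * r ≤ ⌈CB⌉₊ * r := mul_le_mul_of_nonneg_right (Nat.le_ceil CB) hr.le
      refine Finset.mem_filter.2 ⟨hT' hk, ?_, ?_⟩
      · rw [abs_sub_comm]; exact h1.2.1.trans h2
      · rw [abs_sub_comm]; exact h1.2.2.trans h2) ζ
    push_cast at h1
    exact h1
  have hA : ∑ k ∈ S, ‖Lm (B k) (G k (β k) • Pb (Ch s) ξ)‖ ^ 2 ≤
      (2 * ⌈CB⌉₊ + 1) ^ 2 * N * ‖ξ‖ ^ 2 := by
    calc _ ≤ ∑ k ∈ S, ‖Lm (B k) (Pb (Ch s) ξ)‖ ^ 2 := by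
          refine Finset.sum_le_sum fun k hk => pow_le_pow_left₀ (norm_nonneg _) ?_ 2
          rw [map_smul, norm_smul]
          calc _ ≤ 1 * ‖Lm (B k) (Pb (Ch s) ξ)‖ :=
                mul_le_mul_of_nonneg_right ((hD k hk).g1 _) (norm_nonneg _)
            _ = _ := one_mul _
      _ ≤ (2 * ⌈CB⌉₊ + 1) ^ 2 * N * ‖Pb (Ch s) ξ‖ ^ 2 := hmult _
      _ ≤ _ := by
          refine mul_le_mul_of_nonneg_left ?_ (by positivity)
          exact pow_le_pow_left₀ (norm_nonneg _) (hb.norm_le hCh ξ) 2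
  -- the number of indices
  have hcard : (S.card : ℝ) * r ^ 2 ≤ 25 * N := by
    have hm1 : (1 : ℝ) ≤ (⌈1 / r⌉₊ : ℝ) * r := by
      have := mul_le_mul_of_nonneg_right (Nat.le_ceil (1 / r)) hr.le
      rwa [div_mul_cancel₀ _ hr.ne'] at this
    have h1 := card_square (fun k => (-(η k 1), -(η k 2))) S hr hcnt ⌈1 / r⌉₊ (0, 0)
    have h2 : S.filter (fun k => |((-(η k 1), -(η k 2)) : ℝ × ℝ).1 - ((0 : ℝ), (0 : ℝ)).1| ≤
        ⌈1 / r⌉₊ * r ∧ |((-(η k 1), -(η k 2)) : ℝ × ℝ).2 - ((0 : ℝ), (0 : ℝ)).2| ≤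
        ⌈1 / r⌉₊ * r) = S := by
      refine Finset.filter_true_of_mem fun k hk => ?_
      simp only [sub_zero, abs_neg]
      exact ⟨((hD k hk).le 1).trans hm1, ((hD k hk).le 2).trans hm1⟩
    rw [h2] at h1
    have h3 : (⌈1 / r⌉₊ : ℝ) ≤ 2 / r := by
      have := (Nat.ceil_lt_add_one (by positivity : (0 : ℝ) ≤ 1 / r)).le
      calc (⌈1 / r⌉₊ : ℝ) ≤ 1 / r + 1 := this
        _ ≤ 1 / r + 1 / r := by linarith
        _ = 2 / r := by ring
    have h4 : 2 * (⌈1 / r⌉₊ : ℝ) + 1 ≤ 5 / r := by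
      calc 2 * (⌈1 / r⌉₊ : ℝ) + 1 ≤ 2 * (2 / r) + 1 / r := by linarith
        _ = 5 / r := by ring
    have h5 : (2 * (⌈1 / r⌉₊ : ℝ) + 1) ^ 2 ≤ (5 / r) ^ 2 :=
      pow_le_pow_left₀ (by positivity) h4 2
    have h6 : (S.card : ℝ) ≤ (2 * (⌈1 / r⌉₊ : ℝ) + 1) ^ 2 * N := by exact_mod_cast h1
    calc (S.card : ℝ) * r ^ 2 ≤ ((5 / r) ^ 2 * N) * r ^ 2 :=
          mul_le_mul_of_nonneg_right (h6.trans (mul_le_mul_of_nonneg_right h5 hN0)) (sq_nonneg _)
      _ = 25 * N := by field_simp; ring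
  -- the far part
  have hFar : ∑ k ∈ S, ‖Lm (B k) (Z k ξ)‖ ^ 2 ≤ 625 * C ^ 6 * N * ‖ξ‖ ^ 2 := by
    calc _ ≤ ∑ _k ∈ S, (5 * C ^ 3 * r * ‖ξ‖) ^ 2 := by
          refine Finset.sum_le_sum fun k hk => pow_le_pow_left₀ (norm_nonneg _) ?_ 2
          have h1 := (hZ k hk).norm_le hb hC3 (hfzb k hk)
          exact (hm.norm_le (hB k hk) _).trans (((Z k).le_opNorm ξ).trans
            (mul_le_mul_of_nonneg_right h1 (norm_nonneg _)))
      _ = 25 * C ^ 6 * ((S.card : ℝ) * r ^ 2) * ‖ξ‖ ^ 2 := by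
          rw [Finset.sum_const, nsmul_eq_mul]; ring
      _ ≤ 25 * C ^ 6 * (25 * N) * ‖ξ‖ ^ 2 := by gcongr
      _ = _ := by ring
  -- one strip
  set C₁ : ℝ := 2 + CB with hC₁
  have hStrip : ∀ n ∈ range (L + 1), ∑ k ∈ S, ‖Lm (B k) (V k n ξ)‖ ^ 2 ≤
      36864 * C ^ 6 * kakC C₁ * N * ℓ ^ 4 * ‖ξ‖ ^ 2 := by
    intro n hn
    have hn1 := hnr n hn
    have hρ : 0 < 2 ^ n * r := by positivity
    set c : ℝ := 2 ^ n / (64 * C ^ 3) with hc'
    have hcpos : 0 < c := by positivity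
    have hpx : ∀ k ∈ S, ∀ x ∈ Ch s, px s C r (T k) (G k) (η k) (β k) n x = (c : ℂ) * fn k n x := by
      intro k hk x hx
      simp only [fn, Set.indicator_of_mem hx, px, pz, ← hc']
      rw [zn_G (hD k hk) hx]
    have hcn : ((2 ^ n : ℕ) : ℝ) = (2 : ℝ) ^ n := by push_cast; ring
    have key := kak_chart hs ht hs0 ht0 hb hc hl hm hbl hcl hcm S
      (fun k => (-(η k 1), -(η k 2))) (fun k => px s C r (T k) (G k) (η k) (β k) n)
      (fun k => (c : ℂ) • V k n) (r := 2 ^ n * r) (C := C₁) (by rw [hC₁]; linarith) hρ hn1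
      (N := (2 * 2 ^ n + 1) ^ 2 * N)
      (fun k hk => ⟨by rw [abs_neg]; exact (hD k hk).le 1, by rw [abs_neg]; exact (hD k hk).le 2⟩)
      (fun m => by
        have := card_square (fun k => (-(η k 1), -(η k 2))) S hr hcnt (2 ^ n) m
        rw [hcn] at this
        exact this)
      (fun k hk => (hD k hk).adm n hn1 (by rw [hC₁]; linarith))
      (fun k hk => by
        have h1 := (hV k hk n).smul hb (c : ℂ)
        refine ⟨h1.comm, ?_, fun A hA hAm a ε hε h => ?_⟩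
        · have h2 := (hV k hk n).approx (Ch s)ᶜ hCh.compl 0 0 le_rfl fun x hx => by
            simp only [fn, Set.indicator_of_notMem hx, sub_zero, norm_zero, le_refl]
          rw [zero_smul, sub_zero] at h2
          rw [smul_mul_assoc, norm_le_zero_iff.1 h2, smul_zero]
        · refine h1.approx A hAm a ε hε fun x hx => ?_
          have := h x hx
          rwa [hpx k hk x (hA hx)] at this) ξ
    -- comparison
    have hcmp : ∀ k ∈ S, c ^ 2 * ‖Lm (B k) (V k n ξ)‖ ^ 2 ≤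
        ‖Lm (disc t (-(η k 1), -(η k 2)) (C₁ * (2 ^ n * r))) (((c : ℂ) • V k n) ξ)‖ ^ 2 := by
      intro k hk
      rw [← mul_pow]
      refine pow_le_pow_left₀ (by positivity) ?_ 2
      have h1 : B k ⊆ disc t (-(η k 1), -(η k 2)) (C₁ * (2 ^ n * r)) := by
        refine (hBd k hk).trans ?_
        have h2 : CB * r ≤ C₁ * (2 ^ n * r) := by
          have h3 : (1 : ℝ) ≤ 2 ^ n := one_le_pow₀ (by norm_num)
          have h4 : r ≤ 2 ^ n * r := le_mul_of_one_le_left hr.le h3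
          calc CB * r ≤ C₁ * r := mul_le_mul_of_nonneg_right (by rw [hC₁]; linarith) hr.le
            _ ≤ _ := mul_le_mul_of_nonneg_left h4 (by rw [hC₁]; linarith)
        exact fun ν hν => ⟨hν.1, hν.2.1.trans h2, hν.2.2.trans h2⟩
      have h2 : ((c : ℂ) • V k n) ξ = (c : ℂ) • V k n ξ := rfl
      rw [h2, map_smul, norm_smul, Complex.norm_real, Real.norm_eq_abs, abs_of_pos hcpos]
      exact mul_le_mul_of_nonneg_left
        (hm.norm_le_of_subset (hB k hk) (meas_disc ht _ _) h1 _) hcpos.le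
    have h5 : c ^ 2 * ∑ k ∈ S, ‖Lm (B k) (V k n ξ)‖ ^ 2 ≤
        kakC C₁ * ((2 * 2 ^ n + 1) ^ 2 * N : ℕ) * (1 + Real.log (1 / (2 ^ n * r))) ^ 4 *
          ‖ξ‖ ^ 2 := by
      rw [Finset.mul_sum]
      exact (Finset.sum_le_sum hcmp).trans key
    have hkC : 0 ≤ kakC C₁ := kakC_nonneg (by rw [hC₁]; linarith)
    have hlog : (1 + Real.log (1 / (2 ^ n * r))) ^ 4 ≤ ℓ ^ 4 := by
      have h6 : 1 ≤ 1 / (2 ^ n * r) := by rw [le_div_iff₀ hρ]; linarith
      have h7 := Real.log_nonneg h6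
      refine pow_le_pow_left₀ (by linarith) ?_ 4
      rw [hℓ]
      have h8 : 1 / (2 ^ n * r) ≤ 1 / r :=
        one_div_le_one_div_of_le hr (le_mul_of_one_le_left hr.le (one_le_pow₀ (by norm_num)))
      have := Real.log_le_log (by positivity) h8
      linarith
    have hN' : (((2 * 2 ^ n + 1) ^ 2 * N : ℕ) : ℝ) ≤ 9 * (2 ^ n) ^ 2 * N := by
      push_cast
      refine mul_le_mul_of_nonneg_right ?_ hN0
      have h9 : (1 : ℝ) ≤ 2 ^ n := one_le_pow₀ (by norm_num)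
      nlinarith
    have h6 : c ^ 2 * ∑ k ∈ S, ‖Lm (B k) (V k n ξ)‖ ^ 2 ≤
        c ^ 2 * (36864 * C ^ 6 * kakC C₁ * N * ℓ ^ 4 * ‖ξ‖ ^ 2) := by
      refine h5.trans ?_
      calc kakC C₁ * ((2 * 2 ^ n + 1) ^ 2 * N : ℕ) * (1 + Real.log (1 / (2 ^ n * r))) ^ 4 *
            ‖ξ‖ ^ 2 ≤ kakC C₁ * (9 * (2 ^ n) ^ 2 * N) * ℓ ^ 4 * ‖ξ‖ ^ 2 := by
            have h10 : 0 ≤ (1 + Real.log (1 / (2 ^ n * r))) ^ 4 := by positivity
            gcongr
        _ = c ^ 2 * (36864 * C ^ 6 * kakC C₁ * N * ℓ ^ 4 * ‖ξ‖ ^ 2) := by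
            rw [hc']; field_simp; ring
    exact le_of_mul_le_mul_left h6 (by positivity)
  -- the strips together
  have hSt : ∑ k ∈ S, ‖Lm (B k) (∑ n ∈ range (L + 1), V k n ξ)‖ ^ 2 ≤
      4 * (36864 * C ^ 6 * kakC C₁) * N * ℓ ^ 6 * ‖ξ‖ ^ 2 := by
    have hkC : 0 ≤ kakC C₁ := kakC_nonneg (by rw [hC₁]; linarith)
    have h1 : ∀ k ∈ S, ‖Lm (B k) (∑ n ∈ range (L + 1), V k n ξ)‖ ^ 2 ≤
        ((L : ℝ) + 1) * ∑ n ∈ range (L + 1), ‖Lm (B k) (V k n ξ)‖ ^ 2 := by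
      intro k _
      rw [map_sum]
      have h2 : ‖∑ n ∈ range (L + 1), Lm (B k) (V k n ξ)‖ ^ 2 ≤
          (∑ n ∈ range (L + 1), ‖Lm (B k) (V k n ξ)‖) ^ 2 :=
        pow_le_pow_left₀ (norm_nonneg _) (norm_sum_le _ _) 2
      refine h2.trans ?_
      have h3 := sq_sum_le_card_mul_sum_sq (s := range (L + 1))
        (f := fun n => ‖Lm (B k) (V k n ξ)‖)
      rw [card_range] at h3
      push_cast at h3
      exact h3
    have hL0 : (0 : ℝ) ≤ (L : ℝ) + 1 := by positivity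
    calc _ ≤ ∑ k ∈ S, ((L : ℝ) + 1) * ∑ n ∈ range (L + 1), ‖Lm (B k) (V k n ξ)‖ ^ 2 :=
          Finset.sum_le_sum h1
      _ = ((L : ℝ) + 1) * ∑ n ∈ range (L + 1), ∑ k ∈ S, ‖Lm (B k) (V k n ξ)‖ ^ 2 := by
          rw [← Finset.mul_sum, Finset.sum_comm]
      _ ≤ ((L : ℝ) + 1) * ∑ _n ∈ range (L + 1),
            36864 * C ^ 6 * kakC C₁ * N * ℓ ^ 4 * ‖ξ‖ ^ 2 :=
          mul_le_mul_of_nonneg_left (Finset.sum_le_sum hStrip) hL0
      _ = ((L : ℝ) + 1) ^ 2 * (36864 * C ^ 6 * kakC C₁ * N * ℓ ^ 4 * ‖ξ‖ ^ 2) := by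
          rw [Finset.sum_const, nsmul_eq_mul, card_range]; push_cast; ring
      _ ≤ (2 * ℓ) ^ 2 * (36864 * C ^ 6 * kakC C₁ * N * ℓ ^ 4 * ‖ξ‖ ^ 2) := by
          refine mul_le_mul_of_nonneg_right (pow_le_pow_left₀ hL0 hLl 2) (by positivity)
      _ = _ := by ring
  -- all together
  have hkC : 0 ≤ kakC C₁ := kakC_nonneg (by rw [hC₁]; linarith)
  have hsum : ∀ k ∈ S, ‖Lm (B k) (W k (Pb (Ch s) ξ))‖ ^ 2 ≤
      3 * (‖Lm (B k) (G k (β k) • Pb (Ch s) ξ)‖ ^ 2 +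
        ‖Lm (B k) (∑ n ∈ range (L + 1), V k n ξ)‖ ^ 2 + ‖Lm (B k) (Z k ξ)‖ ^ 2) := by
    intro k hk
    have e1 : W k (Pb (Ch s) ξ) = (W k * Pb (Ch s)) ξ := rfl
    have e2 : W k (Pb (Ch s) ξ) = G k (β k) • Pb (Ch s) ξ + ∑ n ∈ range (L + 1), V k n ξ +
        Z k ξ := by
      rw [e1, hdec k hk, _root_.add_apply, _root_.add_apply, _root_.sum_apply]
      rfl
    rw [e2, map_add, map_add]
    refine le_trans (pow_le_pow_left₀ (norm_nonneg _) (norm_add₃_le) 2) ?_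
    exact sq3 _ _ _
  have hℓ6 : (1 : ℝ) ≤ ℓ ^ 6 := one_le_pow₀ hℓ1
  calc _ ≤ ∑ k ∈ S, 3 * (‖Lm (B k) (G k (β k) • Pb (Ch s) ξ)‖ ^ 2 +
        ‖Lm (B k) (∑ n ∈ range (L + 1), V k n ξ)‖ ^ 2 + ‖Lm (B k) (Z k ξ)‖ ^ 2) :=
        Finset.sum_le_sum hsum
    _ = 3 * (∑ k ∈ S, ‖Lm (B k) (G k (β k) • Pb (Ch s) ξ)‖ ^ 2 +
        ∑ k ∈ S, ‖Lm (B k) (∑ n ∈ range (L + 1), V k n ξ)‖ ^ 2 +
        ∑ k ∈ S, ‖Lm (B k) (Z k ξ)‖ ^ 2) := by
        rw [← Finset.mul_sum, Finset.sum_add_distrib, Finset.sum_add_distrib]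
    _ ≤ 3 * ((2 * ⌈CB⌉₊ + 1) ^ 2 * N * ‖ξ‖ ^ 2 +
        4 * (36864 * C ^ 6 * kakC C₁) * N * ℓ ^ 6 * ‖ξ‖ ^ 2 + 625 * C ^ 6 * N * ‖ξ‖ ^ 2) := by
        gcongr
    _ ≤ 3 * ((2 * ⌈CB⌉₊ + 1) ^ 2 * N * ‖ξ‖ ^ 2 * ℓ ^ 6 +
        4 * (36864 * C ^ 6 * kakC C₁) * N * ℓ ^ 6 * ‖ξ‖ ^ 2 +
        625 * C ^ 6 * N * ‖ξ‖ ^ 2 * ℓ ^ 6) := by
        refine mul_le_mul_of_nonneg_left (add_le_add (add_le_add ?_ le_rfl) ?_) (by norm_num)
        · exact le_mul_of_one_le_right (by positivity) hℓ6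
        · exact le_mul_of_one_le_right (by positivity) hℓ6
    _ = lcC C CB * N * ℓ ^ 6 * ‖ξ‖ ^ 2 := by
        rw [lcC, ← hC₁]; ring

end Vale.Agent.P092.H874
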