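import Vale.Agent.P092.H890.Dens

/-!
P092, TEAM N, block [N-KS] (helper874): the homogeneous Lipschitz functions are dense in the
continuous functions on the real projective space.
-/

set_option linter.unusedSectionVars false

open scoped BigOperators Topology LinearAlgebra.Projectivization
open Filter Set

namespace Vale.Agent.P092.H874

open Vale.Agent.P092.H820 (pj)

/-- homogeneous functions of norm at most one, Lipschitz on the sphere -/
def LD (β : Type) [Fintype β] : Set C(ℙ ℝ (β → ℝ), ℂ) :=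
  {G | ∃ (φ : (β → ℝ) → ℂ) (L : ℝ), (∀ a, ‖φ a‖ ≤ 1) ∧
    (∀ a b, ‖φ a - φ b‖ * ‖a‖ ≤ L * ‖a - b‖) ∧
    (∀ (c : ℝ) a, c ≠ 0 → φ (c • a) = φ a) ∧ ∀ v hv, G (Projectivization.mk ℝ v hv) = φ v}

/-- the same without the normalisation -/
def LD1 (β : Type) [Fintype β] : Set C(ℙ ℝ (β → ℝ), ℂ) :=
  {G | ∃ (φ : (β → ℝ) → ℂ) (L M : ℝ), 0 ≤ L ∧ 0 ≤ M ∧ (∀ a, ‖φ a‖ ≤ M) ∧
    (∀ a b, ‖φ a - φ b‖ * ‖a‖ ≤ L * ‖a - b‖) ∧
    (∀ (c : ℝ) a, c ≠ 0 → φ (c • a) = φ a) ∧ ∀ v hv, G (Projectivization.mk ℝ v hv) = φ v}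

variable {β : Type} [Fintype β]

theorem LD1.const (c : ℂ) : ContinuousMap.const _ c ∈ LD1 β :=
  ⟨fun _ => c, 0, ‖c‖, le_rfl, norm_nonneg _, fun _ => le_rfl,
    fun a b => by rw [sub_self, norm_zero, zero_mul, zero_mul], fun _ _ _ => rfl, fun _ _ => rfl⟩

theorem LD1.add {F G : C(ℙ ℝ (β → ℝ), ℂ)} (hF : F ∈ LD1 β) (hG : G ∈ LD1 β) :
    F + G ∈ LD1 β := by
  obtain ⟨φ, L, M, hL, hM, h1, h2, h3, h4⟩ := hF
  obtain ⟨ψ, L', M', hL', hM', h1', h2', h3', h4'⟩ := hG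
  refine ⟨fun v => φ v + ψ v, L + L', M + M', by positivity, by positivity,
    fun a => (norm_add_le _ _).trans (add_le_add (h1 a) (h1' a)), fun a b => ?_,
    fun c a hc => by simp only [h3 c a hc, h3' c a hc],
    fun v hv => by rw [ContinuousMap.add_apply, h4, h4']⟩
  have e : φ a + ψ a - (φ b + ψ b) = (φ a - φ b) + (ψ a - ψ b) := by ring
  rw [e]
  calc ‖(φ a - φ b) + (ψ a - ψ b)‖ * ‖a‖ ≤ (‖φ a - φ b‖ + ‖ψ a - ψ b‖) * ‖a‖ :=
        mul_le_mul_of_nonneg_right (norm_add_le _ _) (norm_nonneg _)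
    _ = ‖φ a - φ b‖ * ‖a‖ + ‖ψ a - ψ b‖ * ‖a‖ := add_mul _ _ _
    _ ≤ L * ‖a - b‖ + L' * ‖a - b‖ := add_le_add (h2 a b) (h2' a b)
    _ = (L + L') * ‖a - b‖ := by ring

theorem LD1.mul {F G : C(ℙ ℝ (β → ℝ), ℂ)} (hF : F ∈ LD1 β) (hG : G ∈ LD1 β) :
    F * G ∈ LD1 β := by
  obtain ⟨φ, L, M, hL, hM, h1, h2, h3, h4⟩ := hF
  obtain ⟨ψ, L', M', hL', hM', h1', h2', h3', h4'⟩ := hG
  refine ⟨fun v => φ v * ψ v, M * L' + M' * L, M * M', by positivity, by positivity,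
    fun a => by rw [norm_mul]; exact mul_le_mul (h1 a) (h1' a) (norm_nonneg _) hM, fun a b => ?_,
    fun c a hc => by simp only [h3 c a hc, h3' c a hc],
    fun v hv => by rw [ContinuousMap.mul_apply, h4, h4']⟩
  have e : φ a * ψ a - φ b * ψ b = φ a * (ψ a - ψ b) + ψ b * (φ a - φ b) := by ring
  rw [e]
  have n1 : ‖φ a * (ψ a - ψ b)‖ ≤ M * ‖ψ a - ψ b‖ := by
    rw [norm_mul]; exact mul_le_mul_of_nonneg_right (h1 a) (norm_nonneg _)
  have n2 : ‖ψ b * (φ a - φ b)‖ ≤ M' * ‖φ a - φ b‖ := by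
    rw [norm_mul]; exact mul_le_mul_of_nonneg_right (h1' b) (norm_nonneg _)
  calc ‖φ a * (ψ a - ψ b) + ψ b * (φ a - φ b)‖ * ‖a‖ ≤
        (M * ‖ψ a - ψ b‖ + M' * ‖φ a - φ b‖) * ‖a‖ :=
        mul_le_mul_of_nonneg_right ((norm_add_le _ _).trans (add_le_add n1 n2)) (norm_nonneg _)
    _ = M * (‖ψ a - ψ b‖ * ‖a‖) + M' * (‖φ a - φ b‖ * ‖a‖) := by ring
    _ ≤ M * (L' * ‖a - b‖) + M' * (L * ‖a - b‖) :=
        add_le_add (mul_le_mul_of_nonneg_left (h2' a b) hM)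
          (mul_le_mul_of_nonneg_left (h2 a b) hM')
    _ = (M * L' + M' * L) * ‖a - b‖ := by ring

/-- the generator -/
noncomputable def gf (p q : β) (v : β → ℝ) : ℝ := v p * v q / ∑ i, v i ^ 2

theorem sum_sq_ge (v : β → ℝ) : ‖v‖ ^ 2 ≤ ∑ i, v i ^ 2 := by
  rcases isEmpty_or_nonempty β with he | hne
  · have : v = 0 := Subsingleton.elim _ _
    rw [this]; simp
  · obtain ⟨i, hi⟩ := Finite.exists_max fun i => ‖v i‖
    have hn : ‖v‖ = ‖v i‖ :=
      le_antisymm ((pi_norm_le_iff_of_nonneg (norm_nonneg _)).2 hi) (norm_le_pi_norm v i)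
    rw [hn, Real.norm_eq_abs, sq_abs]
    exact Finset.single_le_sum (f := fun i => v i ^ 2) (fun _ _ => sq_nonneg _)
      (Finset.mem_univ i)

theorem gf_le (p q : β) (v : β → ℝ) : |gf p q v| ≤ 1 := by
  have h0 : 0 ≤ ∑ i, v i ^ 2 := Finset.sum_nonneg fun _ _ => sq_nonneg _
  rw [gf, abs_div, abs_of_nonneg h0]
  refine div_le_one_of_le₀ ?_ h0
  have h1 : v p ^ 2 ≤ ∑ i, v i ^ 2 := Finset.single_le_sum (f := fun i => v i ^ 2)
    (fun _ _ => sq_nonneg _) (Finset.mem_univ p)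
  have h2 : v q ^ 2 ≤ ∑ i, v i ^ 2 := Finset.single_le_sum (f := fun i => v i ^ 2)
    (fun _ _ => sq_nonneg _) (Finset.mem_univ q)
  rw [abs_le]
  constructor <;> nlinarith [sq_nonneg (v p - v q), sq_nonneg (v p + v q)]

theorem gf_smul (p q : β) (c : ℝ) (v : β → ℝ) (hc : c ≠ 0) : gf p q (c • v) = gf p q v := by
  have e : ∑ i, (c • v) i ^ 2 = c ^ 2 * ∑ i, v i ^ 2 := by
    rw [Finset.mul_sum]
    exact Finset.sum_congr rfl fun i _ => by rw [Pi.smul_apply, smul_eq_mul]; ring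
  rw [gf, gf, e, Pi.smul_apply, Pi.smul_apply, smul_eq_mul, smul_eq_mul]
  have e2 : c * v p * (c * v q) = c ^ 2 * (v p * v q) := by ring
  rw [e2, mul_div_mul_left _ _ (pow_ne_zero 2 hc)]

theorem gf_lip (p q : β) (a b : β → ℝ) :
    |gf p q a - gf p q b| * ‖a‖ ≤ 3 * (Fintype.card β + 1) * ‖a - b‖ := by
  have hab := norm_nonneg (a - b)
  have hn : (0 : ℝ) ≤ Fintype.card β := Nat.cast_nonneg _
  by_cases ha : a = 0
  · rw [ha, norm_zero, mul_zero]; positivity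
  have ha0 : 0 < ‖a‖ := norm_pos_iff.2 ha
  have hsa := sum_sq_ge a
  have hsa0 : 0 < ∑ i, a i ^ 2 := lt_of_lt_of_le (by positivity) hsa
  rcases lt_or_ge (2 * ‖a‖) ‖b‖ with h | h
  · have h1 : ‖a‖ ≤ ‖a - b‖ := by
      have := norm_sub_norm_le b a
      rw [norm_sub_rev] at this
      linarith
    have h2 : |gf p q a - gf p q b| ≤ 2 :=
      (abs_sub _ _).trans (by linarith [gf_le p q a, gf_le p q b])
    calc |gf p q a - gf p q b| * ‖a‖ ≤ 2 * ‖a - b‖ :=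
          mul_le_mul h2 h1 (norm_nonneg _) (by norm_num)
      _ ≤ 3 * (Fintype.card β + 1) * ‖a - b‖ := by nlinarith
  · by_cases hb : b = 0
    · subst hb
      have h2 : gf p q (0 : β → ℝ) = 0 := by simp [gf]
      rw [h2, sub_zero, sub_zero]
      have := mul_le_mul_of_nonneg_right (gf_le p q a) ha0.le
      nlinarith
    have hb0 : 0 < ‖b‖ := norm_pos_iff.2 hb
    have hsb0 : 0 < ∑ i, b i ^ 2 := lt_of_lt_of_le (by positivity) (sum_sq_ge b)
    have e : gf p q a - gf p q b = ((a p * a q - b p * b q) +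
        gf p q b * (∑ i, b i ^ 2 - ∑ i, a i ^ 2)) / ∑ i, a i ^ 2 := by
      unfold gf
      field_simp
      ring
    have c1 : ∀ i, |a i - b i| ≤ ‖a - b‖ := fun i => norm_le_pi_norm (a - b) i
    have c2 : ∀ i, |a i| ≤ ‖a‖ := fun i => norm_le_pi_norm a i
    have c3 : ∀ i, |b i| ≤ ‖b‖ := fun i => norm_le_pi_norm b i
    have n1 : |a p * a q - b p * b q| ≤ (‖a‖ + ‖b‖) * ‖a - b‖ := by
      have e1 : a p * a q - b p * b q = a p * (a q - b q) + b q * (a p - b p) := by ring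
      rw [e1]
      calc |a p * (a q - b q) + b q * (a p - b p)| ≤ |a p| * |a q - b q| + |b q| * |a p - b p| := by
            rw [← abs_mul, ← abs_mul]; exact abs_add_le _ _
        _ ≤ ‖a‖ * ‖a - b‖ + ‖b‖ * ‖a - b‖ :=
            add_le_add (mul_le_mul (c2 p) (c1 q) (abs_nonneg _) (norm_nonneg _))
              (mul_le_mul (c3 q) (c1 p) (abs_nonneg _) (norm_nonneg _))
        _ = _ := by ring
    have n2 : |∑ i, b i ^ 2 - ∑ i, a i ^ 2| ≤ Fintype.card β * ((‖a‖ + ‖b‖) * ‖a - b‖) := by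
      rw [← Finset.sum_sub_distrib]
      refine (Finset.abs_sum_le_sum_abs _ _).trans ?_
      calc ∑ i, |b i ^ 2 - a i ^ 2| ≤ ∑ _i : β, (‖a‖ + ‖b‖) * ‖a - b‖ := by
            refine Finset.sum_le_sum fun i _ => ?_
            have e1 : b i ^ 2 - a i ^ 2 = -((a i + b i) * (a i - b i)) := by ring
            rw [e1, abs_neg, abs_mul]
            exact mul_le_mul ((abs_add_le _ _).trans (add_le_add (c2 i) (c3 i))) (c1 i)
              (abs_nonneg _) (by positivity)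
        _ = _ := by rw [Finset.sum_const, Finset.card_univ, nsmul_eq_mul]
    have n3 : |(a p * a q - b p * b q) + gf p q b * (∑ i, b i ^ 2 - ∑ i, a i ^ 2)| ≤
        (Fintype.card β + 1) * ((‖a‖ + ‖b‖) * ‖a - b‖) := by
      refine (abs_add_le _ _).trans ?_
      rw [abs_mul]
      have := mul_le_mul (gf_le p q b) n2 (abs_nonneg _) zero_le_one
      linarith
    rw [e, abs_div, abs_of_pos hsa0, div_mul_eq_mul_div, div_le_iff₀ hsa0]
    calc |(a p * a q - b p * b q) + gf p q b * (∑ i, b i ^ 2 - ∑ i, a i ^ 2)| * ‖a‖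
        ≤ ((Fintype.card β + 1) * ((‖a‖ + ‖b‖) * ‖a - b‖)) * ‖a‖ :=
          mul_le_mul_of_nonneg_right n3 ha0.le
      _ ≤ ((Fintype.card β + 1) * ((3 * ‖a‖) * ‖a - b‖)) * ‖a‖ := by
          gcongr
          linarith
      _ = 3 * (Fintype.card β + 1) * ‖a - b‖ * ‖a‖ ^ 2 := by ring
      _ ≤ 3 * (Fintype.card β + 1) * ‖a - b‖ * ∑ i, a i ^ 2 := by gcongr

theorem LD1.gen (p q : β) :
    H890.E (m := β) Complex.ofRealHom (fun z => Complex.norm_real z) p q ∈ LD1 β := by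
  refine ⟨fun v => (gf p q v : ℂ), 3 * (Fintype.card β + 1), 1, by positivity, zero_le_one,
    fun a => ?_, fun a b => ?_, fun c a hc => by simp only [gf_smul p q c a hc], fun v hv => ?_⟩
  · rw [Complex.norm_real, Real.norm_eq_abs]; exact gf_le p q a
  · rw [← Complex.ofReal_sub, Complex.norm_real, Real.norm_eq_abs]; exact gf_lip p q a b
  · have e := H890.E_apply (m := β) Complex.ofRealHom (fun z => Complex.norm_real z) p q ⟨v, hv⟩
    refine Eq.trans e ?_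
    simp [gf, H890.sq]

theorem ld1_dense : Dense (LD1 β) := by
  refine (H890.dense_adjE (m := β) Complex.ofRealHom (fun z => Complex.norm_real z)).mono
    fun f hf => ?_
  refine Algebra.adjoin_induction (p := fun f _ => f ∈ LD1 β) ?_ ?_ ?_ ?_ hf
  · rintro f ⟨p, q, rfl⟩
    exact LD1.gen p q
  · intro r
    exact LD1.const r
  · intro f g _ _ hf hg
    exact LD1.add hf hg
  · intro f g _ _ hf hg
    exact LD1.mul hf hg

theorem ld1_sub {G : C(ℙ ℝ (β → ℝ), ℂ)} (hG : G ∈ LD1 β) : G ∈ Submodule.span ℂ (LD β) := by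
  obtain ⟨φ, L, M, hL, hM, h1, h2, h3, h4⟩ := hG
  have hM0 : (0 : ℝ) < M + 1 := by positivity
  have hc : ((M + 1 : ℝ) : ℂ) ≠ 0 := by exact_mod_cast hM0.ne'
  have e : G = ((M + 1 : ℝ) : ℂ) • ((((M + 1 : ℝ) : ℂ)⁻¹) • G) := by
    rw [smul_smul, mul_inv_cancel₀ hc, one_smul]
  rw [e]
  refine Submodule.smul_mem _ _ (Submodule.subset_span ?_)
  have hn : ‖(((M + 1 : ℝ) : ℂ)⁻¹)‖ = (M + 1)⁻¹ := by
    rw [norm_inv, Complex.norm_real, Real.norm_of_nonneg hM0.le]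
  refine ⟨fun v => (((M + 1 : ℝ) : ℂ)⁻¹) * φ v, (M + 1)⁻¹ * L, fun a => ?_, fun a b => ?_,
    fun c a hc => by simp only [h3 c a hc], fun v hv => by
      rw [ContinuousMap.smul_apply, h4, smul_eq_mul]⟩
  · rw [norm_mul, hn, inv_mul_le_iff₀ hM0]
    linarith [h1 a]
  · rw [← mul_sub, norm_mul, hn, mul_assoc, mul_assoc]
    exact mul_le_mul_of_nonneg_left (h2 a b) (by positivity)

/-- **the homogeneous Lipschitz functions span a dense subspace** -/
theorem ld_dense (β : Type) [Fintype β] :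
    closure (Submodule.span ℂ (LD β) : Set C(ℙ ℝ (β → ℝ), ℂ)) = Set.univ :=
  (ld1_dense.mono fun _ hG => ld1_sub hG).closure_eq

end Vale.Agent.P092.H874
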