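import Vale.Agent.P092.H835.PlF

/-!
P092, TEAM N, block [N-K-T] (helper874): a near-wall element of hyperplane type restricted to the
2-vectors of a 3-space. `V : Matrix ι (Fin 3) k` spans the 3-space, `U * V = 1`, `wV V v` is the
2-vector of the plane of `k^3` with normal `v`, pushed by `V`. Any normed field, sup norms.
-/

set_option linter.unusedSectionVars false

namespace Vale.Agent.P092.H874

open Finset Matrix Vale.Agent.P092.H820 Vale.Agent.P092.H87.N Vale.Agent.P092.H835.Pl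
open Vale.Agent.P092.H835.PlF

variable {k : Type*} [NormedField k] {ι : Type*} [Fintype ι]

/-- a column -/
def cl3 (V : Matrix ι (Fin 3) k) (i : Fin 3) : ι → k := fun x => V x i

/-- the 2-vector -/
def wV (V : Matrix ι (Fin 3) k) (v : Fin 3 → k) : ι × ι → k :=
  v 0 • wd (cl3 V 1) (cl3 V 2) + v 1 • wd (cl3 V 2) (cl3 V 0) + v 2 • wd (cl3 V 0) (cl3 V 1)

/-- as a linear map -/
def wVl (V : Matrix ι (Fin 3) k) : (Fin 3 → k) →ₗ[k] (ι × ι → k) where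
  toFun := wV V
  map_add' v w := by funext p; simp only [wV, Pi.add_apply, Pi.smul_apply, smul_eq_mul]; ring
  map_smul' c v := by
    funext p; simp only [wV, Pi.add_apply, Pi.smul_apply, smul_eq_mul, RingHom.id_apply]; ring

theorem alt_add {ω ω' : ι × ι → k} (h : Alt ω) (h' : Alt ω') : Alt (ω + ω') :=
  ⟨fun i => by rw [Pi.add_apply, h.diag, h'.diag, add_zero],
    fun i j => by rw [Pi.add_apply, Pi.add_apply, h.anti, h'.anti]; ring⟩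

theorem alt_smul {ω : ι × ι → k} (h : Alt ω) (c : k) : Alt (c • ω) :=
  ⟨fun i => by rw [Pi.smul_apply, h.diag, smul_zero],
    fun i j => by rw [Pi.smul_apply, Pi.smul_apply, h.anti, smul_neg]⟩

theorem alt_wV (V : Matrix ι (Fin 3) k) (v : Fin 3 → k) : Alt (wV V v) :=
  alt_add (alt_add (alt_smul (alt_wd _ _) _) (alt_smul (alt_wd _ _) _)) (alt_smul (alt_wd _ _) _)

theorem wV_le {V : Matrix ι (Fin 3) k} {D : ℝ} (hD : 0 ≤ D) (hV : ∀ x i, ‖V x i‖ ≤ D)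
    (v : Fin 3 → k) : ‖wV V v‖ ≤ 6 * D ^ 2 * ‖v‖ := by
  have hc : ∀ i, ‖cl3 V i‖ ≤ D := fun i => (pi_norm_le_iff_of_nonneg hD).2 fun x => hV x i
  have h1 : ∀ i j l : Fin 3, ‖v i • wd (cl3 V j) (cl3 V l)‖ ≤ ‖v‖ * (2 * (D * D)) := by
    intro i j l
    rw [norm_smul]
    refine mul_le_mul (norm_le_pi_norm v i) ?_ (norm_nonneg _) (norm_nonneg _)
    refine (wd_le _ _).trans ?_
    have := mul_le_mul (hc j) (hc l) (norm_nonneg _) hD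
    linarith
  refine norm_add₃_le.trans ?_
  have a1 := h1 0 1 2
  have a2 := h1 1 2 0
  have a3 := h1 2 0 1
  calc _ ≤ ‖v‖ * (2 * (D * D)) + ‖v‖ * (2 * (D * D)) + ‖v‖ * (2 * (D * D)) :=
        add_le_add (add_le_add a1 a2) a3
    _ = _ := by ring

/-- rows of `U` against columns of `V` -/
theorem row_col {U : Matrix (Fin 3) ι k} {V : Matrix ι (Fin 3) k} (h : U * V = 1) (i j : Fin 3) :
    ∑ x, U i x * cl3 V j x = if i = j then 1 else 0 := by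
  have := congrFun (congrFun h i) j
  rw [Matrix.mul_apply, Matrix.one_apply] at this
  exact this

theorem bl_wd (x y s t : ι → k) : bl (wd x y) s t =
    (∑ l, s l * x l) * (∑ m, t m * y m) - (∑ m, t m * x m) * (∑ l, s l * y l) := by
  rw [forms]
  rfl

theorem bl_add (Ω Ω' : ι × ι → k) (s t : ι → k) : bl (Ω + Ω') s t = bl Ω s t + bl Ω' s t := by
  simp only [bl, ← Finset.sum_add_distrib]
  refine Finset.sum_congr rfl fun a _ => Finset.sum_congr rfl fun b _ => ?_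
  rw [Pi.add_apply]; ring

theorem bl_smul (c : k) (Ω : ι × ι → k) (s t : ι → k) : bl (c • Ω) s t = c * bl Ω s t := by
  simp only [bl, Finset.mul_sum]
  refine Finset.sum_congr rfl fun a _ => Finset.sum_congr rfl fun b _ => ?_
  rw [Pi.smul_apply, smul_eq_mul]; ring

theorem bl_wV {U : Matrix (Fin 3) ι k} {V : Matrix ι (Fin 3) k} (h : U * V = 1) (v : Fin 3 → k) :
    bl (wV V v) (U 1) (U 2) = v 0 ∧ bl (wV V v) (U 0) (U 2) = - v 1 ∧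
      bl (wV V v) (U 0) (U 1) = v 2 := by
  have rc := row_col h
  refine ⟨?_, ?_, ?_⟩ <;>
  · simp only [wV, bl_add, bl_smul, bl_wd, rc]
    simp

theorem wV_ge {U : Matrix (Fin 3) ι k} {V : Matrix ι (Fin 3) k} (h : U * V = 1) {D : ℝ}
    (hD : 0 ≤ D) (hU : ∀ i x, ‖U i x‖ ≤ D) (v : Fin 3 → k) :
    ‖v‖ ≤ cn ι ^ 2 * (D * D * ‖wV V v‖) := by
  have hcn := cn_nonneg (ι := ι)
  obtain ⟨h0, h1, h2⟩ := bl_wV h v
  have key : ∀ i j, ‖bl (wV V v) (U i) (U j)‖ ≤ cn ι ^ 2 * (D * D * ‖wV V v‖) := fun i j =>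
    bl_le (hU i) (hU j) (fun a b => norm_le_pi_norm _ _) hD hD
  refine (pi_norm_le_iff_of_nonneg (by positivity)).2 fun i => ?_
  fin_cases i
  · change ‖v 0‖ ≤ _
    rw [← h0]; exact key _ _
  · change ‖v 1‖ ≤ _
    rw [← norm_neg, ← h1]; exact key _ _
  · change ‖v 2‖ ≤ _
    rw [← h2]; exact key _ _

/-- the pairing with the point `U p` -/
theorem dot_wV {U : Matrix (Fin 3) ι k} {V : Matrix ι (Fin 3) k} (h : U * V = 1) {D : ℝ}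
    (hD : 0 ≤ D) (hU : ∀ i x, ‖U i x‖ ≤ D) (p : ι → k) (v : Fin 3 → k) :
    ‖(U *ᵥ p) ⬝ᵥ v‖ ≤ cn ι ^ 3 * (D * D * D * ‖w3 p (wV V v)‖) := by
  obtain ⟨h0, h1, h2⟩ := bl_wV h v
  have e : (U *ᵥ p) ⬝ᵥ v = tri (w3 p (wV V v)) (U 0) (U 1) (U 2) := by
    rw [tri_w3, h0, h1, h2, dotProduct, Fin.sum_univ_three]
    have e1 : ∀ i, (U *ᵥ p) i = dt (U i) p := fun i => rfl
    rw [e1, e1, e1]; ring
  rw [e]
  exact tri_le (hU 0) (hU 1) (hU 2) (fun a b c => norm_le_pi_norm _ _) hD hD hD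

section near

variable {A B : Matrix ι ι k} {N r C : ℝ}

/-- the 2-vector of `A V` -/
theorem sq_wV (A : Matrix ι ι k) (V : Matrix ι (Fin 3) k) (v : Fin 3 → k) :
    sq A *ᵥ wV V v = v 0 • wd (A *ᵥ cl3 V 1) (A *ᵥ cl3 V 2) +
      v 1 • wd (A *ᵥ cl3 V 2) (A *ᵥ cl3 V 0) + v 2 • wd (A *ᵥ cl3 V 0) (A *ᵥ cl3 V 1) := by
  rw [wV, Matrix.mulVec_add, Matrix.mulVec_add, Matrix.mulVec_smul, Matrix.mulVec_smul,
    Matrix.mulVec_smul, sq_wd, sq_wd, sq_wd]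

/-- the expansion at a pivot of the point -/
theorem wd_pivot (a : Fin 3 → ι → k) (η v : Fin 3 → k) (i : Fin 3) (hi : η i = 1) :
    v 0 • wd (a 1) (a 2) + v 1 • wd (a 2) (a 0) + v 2 • wd (a 0) (a 1) -
      (η ⬝ᵥ v) • wd (a (i + 1)) (a (i + 2)) =
      v (i + 1) • wd (a (i + 2)) (∑ l, η l • a l) + v (i + 2) • wd (∑ l, η l • a l) (a (i + 1)) := by
  funext p
  simp only [Fin.sum_univ_three, dotProduct, wd, Pi.add_apply, Pi.sub_apply, Pi.smul_apply,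
    smul_eq_mul]
  fin_cases i
  · have h : η 0 = 1 := hi
    simp only [Fin.zero_eta, Fin.isValue, zero_add]
    rw [h]; ring
  · have h : η 1 = 1 := hi
    have e1 : (1 : Fin 3) + 1 = 2 := rfl
    have e2 : (1 : Fin 3) + 2 = 0 := rfl
    simp only [Fin.mk_one, Fin.isValue, e1, e2]
    rw [h]; ring
  · have h : η 2 = 1 := hi
    have e1 : (2 : Fin 3) + 1 = 0 := rfl
    have e2 : (2 : Fin 3) + 2 = 1 := rfl
    simp only [Fin.reduceFinMk, Fin.isValue, e1, e2]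
    rw [h]; ring

/-- the constant -/
noncomputable def ntC (ι : Type*) [Fintype ι] (C D c : ℝ) : ℝ :=
  (1 + cn ι) ^ 8 * (1 + C) ^ 8 * (1 + D) ^ 8 * (1 + c) ^ 2 * 1000

theorem cst (ι : Type*) [Fintype ι] {C D c : ℝ} (hC : 0 ≤ C) (hD : 0 ≤ D) (hc : 0 ≤ c)
    (e1 e2 e3 e4 : ℕ) (q : ℝ) (h1 : e1 ≤ 8) (h2 : e2 ≤ 8) (h3 : e3 ≤ 8) (h4 : e4 ≤ 2)
    (hq0 : 0 ≤ q) (hq : q ≤ 1000) :
    q * ((1 + cn ι) ^ e1 * (1 + C) ^ e2 * (1 + D) ^ e3 * (1 + c) ^ e4) ≤ ntC ι C D c := by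
  have hn := cn_nonneg (ι := ι)
  have g1 : (1 + cn ι) ^ e1 ≤ (1 + cn ι) ^ 8 := pow_le_pow_right₀ (by linarith) h1
  have g2 : (1 + C) ^ e2 ≤ (1 + C) ^ 8 := pow_le_pow_right₀ (by linarith) h2
  have g3 : (1 + D) ^ e3 ≤ (1 + D) ^ 8 := pow_le_pow_right₀ (by linarith) h3
  have g4 : (1 + c) ^ e4 ≤ (1 + c) ^ 2 := pow_le_pow_right₀ (by linarith) h4
  calc q * ((1 + cn ι) ^ e1 * (1 + C) ^ e2 * (1 + D) ^ e3 * (1 + c) ^ e4)
      ≤ 1000 * ((1 + cn ι) ^ 8 * (1 + C) ^ 8 * (1 + D) ^ 8 * (1 + c) ^ 2) := by gcongr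
    _ = _ := by unfold ntC; ring

theorem ntC_nonneg (ι : Type*) [Fintype ι] {C D c : ℝ} (hC : 0 ≤ C) (hD : 0 ≤ D) (hc : 0 ≤ c) :
    0 ≤ ntC ι C D c := by
  have hn := cn_nonneg (ι := ι)
  unfold ntC
  positivity

theorem exists_piv3 {U : Matrix (Fin 3) ι k} {V : Matrix ι (Fin 3) k} {D : ℝ} (hD : 1 ≤ D)
    (hV : ∀ x i, ‖V x i‖ ≤ D) {p : ι → k} (hp1 : ‖p‖ = 1)
    (hcl : ‖V *ᵥ (U *ᵥ p) - p‖ ≤ 1 / 2) :
    ∃ i, 1 ≤ 6 * D * ‖(U *ᵥ p) i‖ ∧ ∀ l, ‖(U *ᵥ p) l‖ ≤ ‖(U *ᵥ p) i‖ := by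
  have hD0 : 0 ≤ D := by linarith
  set u : Fin 3 → k := U *ᵥ p with hu
  obtain ⟨i, hi⟩ := Finite.exists_max fun l => ‖u l‖
  have hnu : ‖u‖ = ‖u i‖ :=
    le_antisymm ((pi_norm_le_iff_of_nonneg (norm_nonneg _)).2 hi) (norm_le_pi_norm u i)
  have hVu : ‖V *ᵥ u‖ ≤ 3 * D * ‖u‖ := by
    refine (pi_norm_le_iff_of_nonneg (by positivity)).2 fun x => ?_
    have e : (V *ᵥ u) x = ∑ l, V x l * u l := rfl
    rw [e]
    refine (norm_sum_le _ _).trans ?_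
    calc ∑ l, ‖V x l * u l‖ ≤ ∑ _l : Fin 3, D * ‖u‖ := by
          refine Finset.sum_le_sum fun l _ => ?_
          rw [norm_mul]
          exact mul_le_mul (hV x l) (norm_le_pi_norm u l) (norm_nonneg _) hD0
      _ = 3 * D * ‖u‖ := by
          rw [Finset.sum_const, Finset.card_univ, Fintype.card_fin, nsmul_eq_mul]
          push_cast; ring
  refine ⟨i, ?_, hi⟩
  have h1 : ‖p‖ ≤ ‖V *ᵥ u‖ + ‖V *ᵥ u - p‖ := by
    have e : p = V *ᵥ u - (V *ᵥ u - p) := by abel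
    calc ‖p‖ = ‖V *ᵥ u - (V *ᵥ u - p)‖ := by rw [← e]
      _ ≤ _ := norm_sub_le _ _
  rw [hp1] at h1
  rw [← hnu]
  linarith

theorem comb_eq {U : Matrix (Fin 3) ι k} {V : Matrix ι (Fin 3) k} (A : Matrix ι ι k) (p : ι → k)
    (c : k) : (∑ l, (c • (U *ᵥ p)) l • (A *ᵥ cl3 V l)) =
      c • (A *ᵥ p + A *ᵥ (V *ᵥ (U *ᵥ p) - p)) := by
  rw [← Matrix.mulVec_add, add_sub_cancel]
  set u : Fin 3 → k := U *ᵥ p with hu
  have e1 : V *ᵥ u = ∑ l, u l • cl3 V l := by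
    funext x
    rw [Finset.sum_apply]
    have e : (V *ᵥ u) x = ∑ l, V x l * u l := rfl
    rw [e]
    refine Finset.sum_congr rfl fun l _ => ?_
    rw [Pi.smul_apply, smul_eq_mul, cl3, mul_comm]
  rw [e1, Matrix.mulVec_sum, Finset.smul_sum]
  refine Finset.sum_congr rfl fun l _ => ?_
  rw [Matrix.mulVec_smul, smul_smul]
  rfl

theorem comb_le (h : Hw A B N r C) {U : Matrix (Fin 3) ι k} {V : Matrix ι (Fin 3) k} {D : ℝ}
    (hD : 0 ≤ D) {p : ι → k} {c : ℝ} (hc : 0 ≤ c)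
    (hp : ‖A *ᵥ p‖ ≤ c * (r * N)) (hcl : ‖V *ᵥ (U *ᵥ p) - p‖ ≤ c * r) {a : k}
    (ha : ‖a‖ ≤ 6 * D) : ‖∑ l, (a • (U *ᵥ p)) l • (A *ᵥ cl3 V l)‖ ≤
      6 * (1 + D) * ((1 + c) * r * N * ((1 + cn ι) * (1 + C))) := by
  have hcn := cn_nonneg (ι := ι)
  have hC := h.C_pos
  have hN := h.N_pos
  have hr := h.r_pos
  rw [comb_eq, norm_smul]
  have h2 : ‖A *ᵥ (V *ᵥ (U *ᵥ p) - p)‖ ≤ cn ι * (C * N * (c * r)) :=
    (h.up _).trans (mul_le_mul_of_nonneg_left (mul_le_mul_of_nonneg_left hcl (by positivity)) hcn)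
  have h3 : ‖A *ᵥ p + A *ᵥ (V *ᵥ (U *ᵥ p) - p)‖ ≤ c * r * N * (1 + cn ι * C) := by
    refine (norm_add_le _ _).trans ?_
    calc _ ≤ c * (r * N) + cn ι * (C * N * (c * r)) := add_le_add hp h2
      _ = _ := by ring
  have h4 : 1 + cn ι * C ≤ (1 + cn ι) * (1 + C) := by nlinarith
  have h5 : c * r * N * (1 + cn ι * C) ≤ (1 + c) * r * N * ((1 + cn ι) * (1 + C)) := by
    refine mul_le_mul ?_ h4 (by positivity) (by positivity)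
    have : 0 ≤ r * N := by positivity
    nlinarith
  calc ‖a‖ * _ ≤ (6 * D) * ((1 + c) * r * N * ((1 + cn ι) * (1 + C))) :=
        mul_le_mul ha (h3.trans h5) (norm_nonneg _) (by positivity)
    _ ≤ _ := mul_le_mul_of_nonneg_right (by linarith) (by positivity)

theorem col_le (h : Hw A B N r C) {V : Matrix ι (Fin 3) k} {D : ℝ} (hD : 0 ≤ D)
    (hV : ∀ x i, ‖V x i‖ ≤ D) (l : Fin 3) :
    ‖A *ᵥ cl3 V l‖ ≤ (1 + cn ι) * ((1 + C) * N * (1 + D)) := by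
  have hcn := cn_nonneg (ι := ι)
  have hC := h.C_pos
  have hN := h.N_pos
  have hcol : ‖cl3 V l‖ ≤ D := (pi_norm_le_iff_of_nonneg hD).2 fun x => hV x l
  refine (h.up _).trans ?_
  have h1 : C * N * ‖cl3 V l‖ ≤ (1 + C) * N * (1 + D) :=
    mul_le_mul (mul_le_mul_of_nonneg_right (by linarith) hN.le) (by linarith) (norm_nonneg _)
      (by positivity)
  exact mul_le_mul (by linarith) h1 (by positivity) (by positivity)

theorem rem_le (h : Hw A B N r C) {U : Matrix (Fin 3) ι k} {V : Matrix ι (Fin 3) k} {D : ℝ}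
    (hD : 0 ≤ D) (hV : ∀ x i, ‖V x i‖ ≤ D) {p : ι → k} {c : ℝ} (hc : 0 ≤ c)
    (hp : ‖A *ᵥ p‖ ≤ c * (r * N)) (hcl : ‖V *ᵥ (U *ᵥ p) - p‖ ≤ c * r) {a : k}
    (ha : ‖a‖ ≤ 6 * D) {i : Fin 3} (hi : (a • (U *ᵥ p)) i = 1) (v : Fin 3 → k) :
    ‖sq A *ᵥ wV V v - ((a • (U *ᵥ p)) ⬝ᵥ v) • wd (A *ᵥ cl3 V (i + 1)) (A *ᵥ cl3 V (i + 2))‖ ≤
      ntC ι C D c * r * N ^ 2 * ‖v‖ := by
  have hcn := cn_nonneg (ι := ι)
  have hC := h.C_pos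
  have hN := h.N_pos
  have hr := h.r_pos
  have g2 := comb_le h hD hc hp hcl ha (V := V)
  have g := col_le h hD hV
  rw [sq_wV, wd_pivot (fun l => A *ᵥ cl3 V l) _ v i hi]
  set b := ∑ l, (a • (U *ᵥ p)) l • (A *ᵥ cl3 V l) with hb
  set x1 : ℝ := (1 + cn ι) * ((1 + C) * N * (1 + D)) with hx1
  set x2 : ℝ := 6 * (1 + D) * ((1 + c) * r * N * ((1 + cn ι) * (1 + C))) with hx2
  have hx10 : 0 ≤ x1 := by positivity
  have t1 : ∀ (l m : Fin 3), ‖v m • wd (A *ᵥ cl3 V l) b‖ ≤ ‖v‖ * (2 * (x1 * x2)) := by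
    intro l m
    rw [norm_smul]
    refine mul_le_mul (norm_le_pi_norm v m) ((wd_le _ _).trans ?_) (norm_nonneg _)
      (norm_nonneg _)
    exact mul_le_mul_of_nonneg_left (mul_le_mul (g l) g2 (norm_nonneg _) hx10) (by norm_num)
  have t2 : ‖v (i + 2) • wd b (A *ᵥ cl3 V (i + 1))‖ =
      ‖v (i + 2) • wd (A *ᵥ cl3 V (i + 1)) b‖ := by
    rw [norm_smul, norm_smul, wd_swap]
  refine (norm_add_le _ _).trans ?_
  rw [t2]
  refine (add_le_add (t1 (i + 2) (i + 1)) (t1 (i + 1) (i + 2))).trans ?_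
  have e : ‖v‖ * (2 * (x1 * x2)) + ‖v‖ * (2 * (x1 * x2)) =
      (24 * ((1 + cn ι) ^ 2 * (1 + C) ^ 2 * (1 + D) ^ 2 * (1 + c) ^ 1)) * (r * N ^ 2 * ‖v‖) := by
    rw [hx1, hx2]; ring
  rw [e]
  have h1 := cst ι hC.le hD hc 2 2 2 1 24 (by norm_num) (by norm_num) (by norm_num)
    (by norm_num) (by norm_num) (by norm_num)
  refine (mul_le_mul_of_nonneg_right h1 (by positivity)).trans (le_of_eq (by ring))

theorem bet_le (h : Hw A B N r C) {V : Matrix ι (Fin 3) k} {D : ℝ}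
    (hD : 0 ≤ D) (hV : ∀ x i, ‖V x i‖ ≤ D) {c : ℝ} (hc : 0 ≤ c) (l m : Fin 3) :
    ‖wd (A *ᵥ cl3 V l) (A *ᵥ cl3 V m)‖ ≤ ntC ι C D c * N ^ 2 := by
  have hcn := cn_nonneg (ι := ι)
  have hC := h.C_pos
  have hN := h.N_pos
  have g := col_le h hD hV
  refine (wd_le _ _).trans ?_
  have h1 : ‖A *ᵥ cl3 V l‖ * ‖A *ᵥ cl3 V m‖ ≤ ((1 + cn ι) * ((1 + C) * N * (1 + D))) *
      ((1 + cn ι) * ((1 + C) * N * (1 + D))) :=
    mul_le_mul (g l) (g m) (norm_nonneg _) (by positivity)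
  have h2 := cst ι hC.le hD hc 2 2 2 0 2 (by norm_num) (by norm_num) (by norm_num)
    (by norm_num) (by norm_num) (by norm_num)
  calc 2 * (‖A *ᵥ cl3 V l‖ * ‖A *ᵥ cl3 V m‖)
      ≤ 2 * (((1 + cn ι) * ((1 + C) * N * (1 + D))) * ((1 + cn ι) * ((1 + C) * N * (1 + D)))) :=
        mul_le_mul_of_nonneg_left h1 (by norm_num)
    _ = 2 * ((1 + cn ι) ^ 2 * (1 + C) ^ 2 * (1 + D) ^ 2 * (1 + c) ^ 0) * N ^ 2 := by ring
    _ ≤ ntC ι C D c * N ^ 2 := mul_le_mul_of_nonneg_right h2 (by positivity)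

theorem low3 (h : Hw A B N r C) {U : Matrix (Fin 3) ι k} {V : Matrix ι (Fin 3) k}
    (hUV : U * V = 1) {D : ℝ} (hD : 0 ≤ D) (hU : ∀ i x, ‖U i x‖ ≤ D)
    {p : ι → k} {c : ℝ} (hc : 0 ≤ c) (hp1 : ‖p‖ = 1) (hp : ‖A *ᵥ p‖ ≤ c * (r * N) * ‖p‖) {a : k}
    (ha : ‖a‖ ≤ 6 * D) (v : Fin 3 → k) :
    N ^ 2 * ‖(a • (U *ᵥ p)) ⬝ᵥ v‖ ≤ ntC ι C D c * ‖sq A *ᵥ wV V v‖ := by
  have hcn := cn_nonneg (ι := ι)
  have hC := h.C_pos
  have h1 := dot_wV hUV hD hU p v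
  have h2 := h.p2 hp (alt_wV V v)
  rw [hp1, one_mul] at h2
  rw [smul_dotProduct, smul_eq_mul, norm_mul]
  have hN2 : 0 ≤ N ^ 2 := sq_nonneg _
  have h3 : ‖a‖ * ‖(U *ᵥ p) ⬝ᵥ v‖ ≤ (6 * D) * (cn ι ^ 3 * (D * D * D * ‖w3 p (wV V v)‖)) :=
    mul_le_mul ha h1 (norm_nonneg _) (by positivity)
  have h4 := cst ι hC.le hD hc 6 3 4 1 72 (by norm_num) (by norm_num) (by norm_num)
    (by norm_num) (by norm_num) (by norm_num)
  have h5 : 72 * (cn ι ^ 6 * C ^ 3 * D ^ 4 * c) ≤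
      72 * ((1 + cn ι) ^ 6 * (1 + C) ^ 3 * (1 + D) ^ 4 * (1 + c) ^ 1) := by
    have e1 : cn ι ^ 6 ≤ (1 + cn ι) ^ 6 := pow_le_pow_left₀ hcn (by linarith) 6
    have e2 : C ^ 3 ≤ (1 + C) ^ 3 := pow_le_pow_left₀ hC.le (by linarith) 3
    have e3 : D ^ 4 ≤ (1 + D) ^ 4 := pow_le_pow_left₀ hD (by linarith) 4
    rw [pow_one]
    refine mul_le_mul_of_nonneg_left (mul_le_mul (mul_le_mul (mul_le_mul e1 e2 (by positivity)
      (by positivity)) e3 (by positivity) (by positivity)) (by linarith) hc (by positivity))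
      (by norm_num)
  calc N ^ 2 * (‖a‖ * ‖(U *ᵥ p) ⬝ᵥ v‖)
      ≤ N ^ 2 * ((6 * D) * (cn ι ^ 3 * (D * D * D * ‖w3 p (wV V v)‖))) :=
        mul_le_mul_of_nonneg_left h3 hN2
    _ = 6 * D * cn ι ^ 3 * (D * D * D) * (N ^ 2 * ‖w3 p (wV V v)‖) := by ring
    _ ≤ 6 * D * cn ι ^ 3 * (D * D * D) * (12 * cn ι ^ 3 * C ^ 3 * c * ‖sq A *ᵥ wV V v‖) :=
        mul_le_mul_of_nonneg_left h2 (by positivity)
    _ = 72 * (cn ι ^ 6 * C ^ 3 * D ^ 4 * c) * ‖sq A *ᵥ wV V v‖ := by ring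
    _ ≤ ntC ι C D c * ‖sq A *ᵥ wV V v‖ :=
        mul_le_mul_of_nonneg_right (h5.trans h4) (norm_nonneg _)

theorem low3' (h : Hw A B N r C) {U : Matrix (Fin 3) ι k} {V : Matrix ι (Fin 3) k}
    (hUV : U * V = 1) {D : ℝ} (hD : 0 ≤ D) (hU : ∀ i x, ‖U i x‖ ≤ D) {c : ℝ} (hc : 0 ≤ c)
    (v : Fin 3 → k) : N ^ 2 * (r * ‖v‖) ≤ ntC ι C D c * ‖sq A *ᵥ wV V v‖ := by
  have hcn := cn_nonneg (ι := ι)
  have hC := h.C_pos
  have hr := h.r_pos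
  have h1 := wV_ge hUV hD hU v
  have h2 := h.low_sq (alt_wV V v)
  have h4 := cst ι hC.le hD hc 4 2 2 0 3 (by norm_num) (by norm_num) (by norm_num)
    (by norm_num) (by norm_num) (by norm_num)
  have h5 : 3 * (cn ι ^ 4 * C ^ 2 * D ^ 2 * 1) ≤
      3 * ((1 + cn ι) ^ 4 * (1 + C) ^ 2 * (1 + D) ^ 2 * (1 + c) ^ 0) := by
    have e1 : cn ι ^ 4 ≤ (1 + cn ι) ^ 4 := pow_le_pow_left₀ hcn (by linarith) 4
    have e2 : C ^ 2 ≤ (1 + C) ^ 2 := pow_le_pow_left₀ hC.le (by linarith) 2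
    have e3 : D ^ 2 ≤ (1 + D) ^ 2 := pow_le_pow_left₀ hD (by linarith) 2
    rw [pow_zero]
    exact mul_le_mul_of_nonneg_left (mul_le_mul_of_nonneg_right (mul_le_mul (mul_le_mul e1 e2
      (by positivity) (by positivity)) e3 (by positivity) (by positivity)) zero_le_one)
      (by norm_num)
  calc N ^ 2 * (r * ‖v‖) ≤ N ^ 2 * (r * (cn ι ^ 2 * (D * D * ‖wV V v‖))) :=
        mul_le_mul_of_nonneg_left (mul_le_mul_of_nonneg_left h1 hr.le) (sq_nonneg _)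
    _ = cn ι ^ 2 * (D * D) * (r * N ^ 2 * ‖wV V v‖) := by ring
    _ ≤ cn ι ^ 2 * (D * D) * (3 * cn ι ^ 2 * C ^ 2 * ‖sq A *ᵥ wV V v‖) :=
        mul_le_mul_of_nonneg_left h2 (by positivity)
    _ = 3 * (cn ι ^ 4 * C ^ 2 * D ^ 2 * 1) * ‖sq A *ᵥ wV V v‖ := by ring
    _ ≤ ntC ι C D c * ‖sq A *ᵥ wV V v‖ :=
        mul_le_mul_of_nonneg_right (h5.trans h4) (norm_nonneg _)

/-- **[N-K-T]** the restriction of a near-wall element to a 3-space close to the contracted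
point -/
theorem near3 (h : Hw A B N r C) {U : Matrix (Fin 3) ι k} {V : Matrix ι (Fin 3) k}
    (hUV : U * V = 1) {D : ℝ} (hD : 1 ≤ D) (hU : ∀ i x, ‖U i x‖ ≤ D) (hV : ∀ x i, ‖V x i‖ ≤ D)
    {p : ι → k} {c : ℝ} (hc : 0 ≤ c) (hp1 : ‖p‖ = 1) (hp : ‖A *ᵥ p‖ ≤ c * (r * N) * ‖p‖)
    (hcl : ‖V *ᵥ (U *ᵥ p) - p‖ ≤ c * r) (hsm : c * r ≤ 1 / 2) :
    ∃ (i : Fin 3) (β : ι × ι → k), (U *ᵥ p) i ≠ 0 ∧
      (∀ l, ‖(((U *ᵥ p) i)⁻¹ • (U *ᵥ p)) l‖ ≤ 1) ∧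
      ‖β‖ ≤ ntC ι C D c * N ^ 2 ∧
      (∀ v, ‖sq A *ᵥ wV V v - ((((U *ᵥ p) i)⁻¹ • (U *ᵥ p)) ⬝ᵥ v) • β‖ ≤
        ntC ι C D c * r * N ^ 2 * ‖v‖) ∧
      (∀ v, N ^ 2 * ‖(((U *ᵥ p) i)⁻¹ • (U *ᵥ p)) ⬝ᵥ v‖ ≤ ntC ι C D c * ‖sq A *ᵥ wV V v‖) ∧
      (∀ v, N ^ 2 * (r * ‖v‖) ≤ ntC ι C D c * ‖sq A *ᵥ wV V v‖) := by
  have hD0 : 0 ≤ D := by linarith
  obtain ⟨i, hlow, hi⟩ := exists_piv3 (U := U) hD hV hp1 (hcl.trans hsm)
  have hui : 0 < ‖(U *ᵥ p) i‖ := by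
    by_contra h0
    have : ‖(U *ᵥ p) i‖ = 0 := le_antisymm (not_lt.1 h0) (norm_nonneg _)
    rw [this] at hlow
    linarith
  have hui0 : (U *ᵥ p) i ≠ 0 := norm_pos_iff.1 hui
  have hinv : ‖((U *ᵥ p) i)⁻¹‖ ≤ 6 * D := by
    rw [norm_inv, inv_le_iff_one_le_mul₀ hui]
    exact hlow
  have hp' : ‖A *ᵥ p‖ ≤ c * (r * N) := by rw [hp1, mul_one] at hp; exact hp
  have hone : (((U *ᵥ p) i)⁻¹ • (U *ᵥ p)) i = 1 := by
    rw [Pi.smul_apply, smul_eq_mul, inv_mul_cancel₀ hui0]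
  refine ⟨i, wd (A *ᵥ cl3 V (i + 1)) (A *ᵥ cl3 V (i + 2)), hui0, fun l => ?_,
    bet_le h hD0 hV hc _ _, rem_le h hD0 hV hc hp' hcl hinv hone,
    low3 h hUV hD0 hU hc hp1 hp hinv, low3' h hUV hD0 hU hc⟩
  rw [Pi.smul_apply, smul_eq_mul, norm_mul, norm_inv, inv_mul_le_iff₀ hui, mul_one]
  exact hi l

end near

end Vale.Agent.P092.H874
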