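import Vale.Agent.P092.UN.NfOR
import Vale.Agent.P092.SNT.Main
import Vale.Agent.P092.H684.Psp9

/-!
P092, TEAM P, stage CL-O, all amplifications (helper874): the classes `UN.LatticeO` and
`UN.LatticeOR` from the core statement `SNT.CoreAllE`.
-/

set_option linter.all false

open Matrix Filter Topology

namespace Vale.Agent.P092.UN

open Vale.Agent.P092.H303 (FormGroup hyp Idx)
open Vale.Agent.P092.H684.Psp (NC NC.pq lat_pq)
open Vale.Agent.P092.SNT (CoreAllE superAll_of_coreAllE)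
open Vale.Agent.P092.CL (OF EUF)

/-- **all amplifications, groups with a proper central quotient `G`** -/
theorem superAll_nc {E G : Type} [Group E] [TopologicalSpace E] [Group G] [TopologicalSpace G]
    [IsTopologicalGroup G] [T2Space G] [LocallyCompactSpace G] (hE : NC E G) (h : CoreAllE G)
    {Γ : Type} [Group Γ] (hicc : ICC Γ) (i : Γ →* E) (hi : Function.Injective i)
    (hl : IsLattice i.range) : SuperAll Γ := by
  obtain ⟨i', hi', hl'⟩ := lat_pq hE.pq hicc i hi ((isLattice_iff _).1 hl)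
  exact superAll_of (superAll_of_coreAllE h hicc i' hi' hl')

/-- **The class `LatticeO`, all amplifications.** -/
theorem superAll_latticeO (h : ∀ (k : Type) [NontriviallyNormedField k] [ProperSpace k]
    [IsUltrametricDist k] (ι : Type) [Fintype ι] [DecidableEq ι] (J₀ : Matrix ι ι k) (s : ℕ),
    OF J₀ → CoreAllE (EUF (RingHom.id k) 1 (hyp (s + 2) 1 J₀) ⧸
      Subgroup.center (EUF (RingHom.id k) 1 (hyp (s + 2) 1 J₀)))) :
    ∀ (Γ : Type) [Group Γ], LatticeO Γ → SuperAll Γ := by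
  rintro Γ _ ⟨hicc, E, _, _, i, ht, hi, hl⟩
  obtain ⟨k, _, ι, _, _, J₀, s, hp, hu, hO, hNC⟩ := nf_typeO ht
  haveI := CL.lc_EUF hO s
  haveI := CL.t2_EUF hO s
  haveI : IsClosed (Subgroup.center (EUF (RingHom.id k) 1 (hyp (s + 2) 1 J₀)) :
      Set (EUF (RingHom.id k) 1 (hyp (s + 2) 1 J₀))) := (CL.finite_center_EUF hO s).isClosed
  exact superAll_nc hNC (h k ι J₀ s hO) hicc i hi hl

/-- **The class `LatticeOR`, all amplifications.** -/
theorem superAll_latticeOR (h : ∀ (ι : Type) [Fintype ι] [DecidableEq ι] (J₀ : Matrix ι ι ℝ),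
    OF J₀ → CoreAllE (EUF (RingHom.id ℝ) 1 (hyp (0 + 2) 1 J₀) ⧸
      Subgroup.center (EUF (RingHom.id ℝ) 1 (hyp (0 + 2) 1 J₀)))) :
    ∀ (Γ : Type) [Group Γ], LatticeOR Γ → SuperAll Γ := by
  rintro Γ _ ⟨hicc, E, _, _, i, ht, hi, hl⟩
  obtain ⟨ι, _, _, J₀, hO, hNC⟩ := nf_typeOR ht
  haveI := CL.lc_EUF hO 0
  haveI := CL.t2_EUF hO 0
  haveI : IsClosed (Subgroup.center (EUF (RingHom.id ℝ) 1 (hyp (0 + 2) 1 J₀)) :
      Set (EUF (RingHom.id ℝ) 1 (hyp (0 + 2) 1 J₀))) := (CL.finite_center_EUF hO 0).isClosed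
  exact superAll_nc hNC (h ι J₀ hO) hicc i hi hl

end Vale.Agent.P092.UN
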