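import Vale.Agent.P092.H99.Nj3R
import Vale.Agent.P092.H68.Nj3K
import Vale.Agent.P092.H874.LipD

/-!
P092, TEAM N (helper99, helper874): `NJB3Stmt ℝ` and `SN.KeyStmt ℝ μ`, every `n ≥ 3`,
unconditional.
-/

set_option linter.unusedSectionVars false

open MeasureTheory

namespace Vale.Agent.P092.H874

/-- the count behind KEY over the reals -/
theorem njb3_real : H68.Nj3.NJB3Stmt ℝ :=
  H99.Nj3R.nj3_real fun β => ld_dense β

/-- **KEY over the reals**, every `n` -/
theorem keyStmt_real {μ : Measure ℝ} [IsFiniteMeasureOnCompacts μ] [μ.IsOpenPosMeasure] :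
    SN.KeyStmt ℝ μ := H68.Nj3.keyStmt3 njb3_real

end Vale.Agent.P092.H874
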